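import Vale.Agent.P004F.Qx.Fr
import Vale.Agent.P004M.TE.All
import Vale.Agent.P022E.GW.Defs

/-! # P014T, row T4: the number of points of the reduction kills the points modulo the kernel -/

set_option linter.all false

open scoped Classical

noncomputable section

namespace Vale.Agent.P014T.Nd

open WeierstrassCurve.Affine Vale.Agent.P004H.H666 NumberField
open Vale.Agent.P004M.TE
open Vale.Agent.P004K (Ip K1)
open Vale.Agent.P022E.GW (Ov)
open Vale.Agent.P004F.Qx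

theorem k1_np {A B : ℤ} {l : ℕ} (hD : ¬ (l : ℤ) ∣ 2 * (4 * A ^ 3 + 27 * B ^ 2))
    {P : Ideal (𝓞 Qb)} (o : Ov l P) {φ : GQ} (hφ : P022E.GW.Fb l P φ) {Q : Pt A B}
    (hQ : ga φ Q = Q) : K1 P ((l + 1 - al A B l) • Q) := by
  have hl := Fact.mk o.1
  obtain ⟨O, hO⟩ := Fg.ex_O o.2.1 fun e => o.1.ne_zero (by simpa [e] using o.2.2)
  let κ := AlgebraicClosure (IsLocalRing.ResidueField O)
  let ρ : O →+* κ := (algebraMap _ κ).comp (IsLocalRing.residue O)
  let r : Qb → κ := fun z => if h : z ∈ O then ρ ⟨z, h⟩ else 0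
  have hr : ∀ z (h : O.valuation z ≤ 1), r z = ρ ⟨z, (O.valuation_le_one_iff z).1 h⟩ :=
    fun z h => dif_pos ((O.valuation_le_one_iff z).1 h)
  have r0 : ∀ z, O.valuation z ≤ 1 → (r z = 0 ↔ O.valuation z < 1) := by
    intro z hz
    rw [hr z hz, RingHom.comp_apply, map_eq_zero, IsLocalRing.residue_eq_zero_iff,
      ValuationSubring.valuation_lt_one_iff]
  have vi : ∀ n : ℤ, O.valuation (n : Qb) ≤ 1 := fun n =>
    (O.valuation_le_one_iff _).2 (intCast_mem O n)
  have ri : ∀ n : ℤ, r n = n := fun n => (hr _ (vi n)).trans (map_intCast ρ n)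
  have hc : CharP κ l := (CharP.charP_iff_prime_eq_zero hl.out).2 (by
    have := (r0 _ (vi l)).2 (by simpa using (hO.mem o.2.1 l).2 o.2.2)
    rwa [ri, Int.cast_natCast] at this)
  letI : Algebra (ZMod l) κ := ZMod.algebra κ l
  have eA : algebraMap ℚ Qb (A : ℚ) = A := map_intCast _ A
  have eB : algebraMap ℚ Qb (B : ℚ) = B := map_intCast _ B
  have hΔ : O.valuation (Cv Qb (A : ℚ) (B : ℚ)).Δ = 1 := by
    have e : (Cv Qb (A : ℚ) (B : ℚ)).Δ = ((-(2 ^ 3 * (2 * (4 * A ^ 3 + 27 * B ^ 2))) : ℤ) : Qb) := by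
      simp only [WeierstrassCurve.Δ, WeierstrassCurve.b₂, WeierstrassCurve.b₄, WeierstrassCurve.b₆,
        WeierstrassCurve.b₈, eA, eB]
      push_cast
      ring
    rw [e]
    refine le_antisymm (vi _) (not_lt.1 fun h1 => ?_)
    rw [← r0 _ (vi _), ri, CharP.intCast_eq_zero_iff κ l, dvd_neg] at h1
    have hp := Nat.prime_iff_prime_int.1 hl.out
    exact hD ((hp.dvd_or_dvd h1).elim (fun h => (hp.dvd_of_dvd_pow h).mul_right _) id)
  have v0 : O.valuation (0 : Qb) ≤ 1 := by simp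
  have r00 : r 0 = 0 := (r0 0 v0).2 (by simp)
  obtain ⟨hy, h3, -⟩ := P179W.ptRed_holds Qb _ O.valuation (Cv Qb (A : ℚ) (B : ℚ))
    ⟨v0, v0, v0, (congrArg _ eA).trans_le (vi A), (congrArg _ eB).trans_le (vi B)⟩ hΔ
  obtain ⟨-, hn, hadd⟩ := h3 κ r (Cv κ (A : ZMod l) (B : ZMod l))
    (by simpa using ri 1)
    (fun a b ha hb => by rw [hr a ha, hr b hb, hr _ (O.valuation.map_add_le ha hb), ← map_add]; rfl)
    (fun a b ha hb => by rw [hr a ha, hr b hb, hr _ (P179W.val_mul_le_one ha hb), ← map_mul]; rfl)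
    r0 r00.symm r00.symm r00.symm
    ((map_intCast _ A).trans ((ri A).symm.trans (congrArg r eA.symm)))
    ((map_intCast _ B).trans ((ri B).symm.trans (congrArg r eB.symm)))
  let rd : Pt A B →+ (Cv κ (A : ZMod l) (B : ZMod l)).Point := AddMonoidHom.mk' _ hadd
  have d1 : ∀ {x y} (h : (Cv Qb (A : ℚ) (B : ℚ)).Nonsingular x y) (hx : O.valuation x ≤ 1),
      rd (.some x y h) = .some (r x) (r y) (hn x y h.1 hx) :=
    fun h hx => (if_pos hx).trans (P179W.pt_of _)
  have d2 : ∀ {x y} (h : (Cv Qb (A : ℚ) (B : ℚ)).Nonsingular x y), ¬ O.valuation x ≤ 1 →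
      rd (.some x y h) = 0 := fun h hx => if_neg hx
  have rg : ∀ z, φ z = z → O.valuation z ≤ 1 → r z ^ l = r z := fun z e hz => by
    have h6 := (hO.zp _).1 (Fg.frob o.2.1 hφ ((hO.ip z).2 hz))
    rw [e] at h6
    have h7 := (r0 _ h6.le).2 h6
    rw [hr _ h6.le] at h7
    rw [hr _ hz, ← map_pow, eq_comm, ← sub_eq_zero, ← map_sub]
    exact h7
  have f : Fb (rd Q) = rd Q := by
    rcases Q with _ | ⟨x, y, h'⟩
    · change Fb (rd 0) = rd 0
      simp
    rw [ga_some, Point.some.injEq] at hQ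
    by_cases hx : O.valuation x ≤ 1
    · rw [d1 h' hx, Fb, pa_some]
      simp only [rg x hQ.1 hx, rg y hQ.2 (hy x y h'.1 hx), FiniteField.coe_frobeniusAlgHom,
        ZMod.card]
    · rw [d2 h' hx, map_zero]
  have e := frob_ch (char_ne hD) (disc_ne hD) (rd Q)
  rw [f, f, ZMod.card] at e
  have z : rd ((l + 1 - al A B l) • Q) = 0 := by
    rw [map_zsmul, al_eq hD, ← e, sub_neg_eq_add, add_zsmul, add_zsmul, one_zsmul]
    abel
  generalize (l + 1 - al A B l) • Q = R at z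
  rintro x y h' rfl i
  rw [d1 h' ((hO.ip x).1 i)] at z
  exact Point.some_ne_zero _ z

end Vale.Agent.P014T.Nd
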