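import Vale.Agent.P014T.Nd.Iso
import Vale.Agent.P014T.Nd.Rd
import Vale.Agent.P014T.Ig.All
import Vale.Agent.P014T.Tg.St2
import Vale.Agent.P014T.Z.Dv
import Vale.Agent.P014T.Dg.Pz
import Vale.Agent.P004Z.Ar.Unf
import Vale.Agent.P004Z.Ar.Aro
import Vale.Agent.P004Z.EF.All
import Vale.Agent.P004Z.Fin.Int
import Vale.Agent.P004Z.W2.Smo

/-! # P014T: the tame formula of Gross and Zagier on any curve -/

set_option linter.all false

open UpperHalfPlane CongruenceSubgroup NumberField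
open scoped Classical

noncomputable section

namespace Vale.Agent.P014T.Nd

open P004Z P014T.Z Vale.Agent.P004H.H666
open P004N (RN ALw)
open P004Z.H (Pl hh)
open Vale.Agent.P022 (Qb GQ)
open Vale.Agent.P022E.GW (Ov Fb)
open Vale.Agent.P004K (K1)
open Vale.Agent.P004M.TE (Pt ga al)
open Bx (nu rx)
open Tg (Lw Ms TGZ)

theorem dvd_den {A B : ℤ} {l : ℕ} {L : Ideal (𝓞 Qb)} (o : Ov l L) {y : Pt A B}
    (f : ∀ g, ga g y = y) (k : K1 L y) (y0 : y ≠ 0) : l ∣ (rx y).den := by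
  obtain ⟨v, a⟩ := Bx.ex_av o
  have b := ((k1_iff a o).1 k).resolve_left y0
  by_contra c
  rw [Bx.xp_rx f, Rat.cast_def, map_div₀, ← Int.cast_natCast,
    (a.int o _).2 (mt Int.natCast_dvd_natCast.1 c), div_one] at b
  exact b.not_ge a.na.apply_intCast_le_one

/-- **the tame formula on any curve** -/
theorem tga (gz : GZX) (tg : TGZ) {A B : ℤ} {N : ℕ} {G a} {d : ℕ} {β : ℤ}
    (hD : 4 * A ^ 3 + 27 * B ^ 2 ≠ 0) (rn : RN N G a)
    (fin : {p : ℕ | p.Prime ∧ al A B p ≠ a p}.Finite) (hAL : ALw N N G 1) (hV : Van1 a 1)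
    (hg : Hg N d β) (l1 : L1 a ≠ 0) (l0 : L0 a d ≠ 0) :
    ∃ (v : ℕ → AbsoluteValue Qb ℝ) (X : Pt A B), Pl v ∧ (∀ g, ga g X = X) ∧
      ¬ IsOfFinAddOrder X ∧ ∃ (M L : ℕ) (T : Finset ℕ) (Γ : Subgroup GQ), M ≠ 0 ∧
      (∀ p ∈ T, p.Prime) ∧ IsOpen (Γ : Set GQ) ∧ Γ.Normal ∧
      ∀ (l : ℕ) P φ (n : ℕ) (W : ZMod l → ZMod (2 ^ n)), L < l → Ov l P → Fb l P φ → φ ∈ Γ →
        Lw l (2 ^ n) W → (∀ p ∈ T, W p = 0) → ∃ z : ℤ, z * (L1 a / hh v X) =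
          M * ∑ k ∈ Finset.range l, ((W k).val : ℂ) * Ms G (k / l) ∧
        ((2 * (l + 1 - al A B l) * z : ℤ) : ZMod (2 ^ n)) =
          -(M * W (nu ((l + 1 - al A B l) • X))) := by
  have : NeZero N := ⟨rn.pos.ne'⟩
  obtain ⟨D⟩ := Ar.unf EF.par N G a rn
  obtain ⟨V, pl⟩ := Ar.ex_plc P004Z.Fin.ext
  obtain ⟨s₀, hs⟩ := (divs1 (N := N) d β).2.2.2 (Gamma0 N) inferInstance le_rfl
  obtain ⟨c, -, hc⟩ := Dg.ex_cov D.par.lat
  obtain ⟨y, hy, fy, gz⟩ := gz N G a D d β s₀ c V rn hAL hV hg hs hc pl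
  have p' := Gl.pl_vq pl
  have y0 : hh (Gl.vq V) y ≠ 0 := fun e => by
    have := hg.big
    rw [e, mul_zero, Complex.ofReal_zero] at gz
    exact mul_ne_zero (mul_ne_zero (mul_ne_zero (pow_ne_zero 2 (Complex.ofReal_ne_zero.2
      Real.pi_ne_zero)) (Complex.ofReal_ne_zero.2 (Real.sqrt_ne_zero'.2
        (Nat.cast_pos.2 (by omega))))) l1) l0 gz.symm
  have nt := mt (Cn.hh_zero p' (Wm.hD_Qb D.par.disc)).2 y0
  obtain ⟨Λ, h, h2, h3, -⟩ := P027H.exists_unif A B (by exact_mod_cast hD)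
  have ma : {p : ℕ | p.Prime ∧ al D.A D.B p ≠ a p}.Finite := D.par.mat
  obtain ⟨k, ψ, k0, le, i, gal, -⟩ := Ig.isog_hom h h2 h3 D.par.lat D.par.g2_eq D.par.g3_eq
    ((fin.union ma).subset fun p m => by
      by_cases e : al A B p = a p
      exacts [Or.inr ⟨m.1, fun j => m.2 (e.trans j.symm)⟩, Or.inl ⟨m.1, e⟩])
  have k1 : (k : ℚ) ≠ 0 := Nat.cast_ne_zero.2 k0.ne'
  have i' : Ig.Iso k D.Λ Λ ψ := fun z y u => by simpa using i z y u
  have e1 := Hi.hiso p' h h2 h3 D.par.lat D.par.g2_eq D.par.g3_eq k1 i' y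
  obtain ⟨T, T1, T2⟩ := tis h h2 h3 D.par.lat D.par.g2_eq D.par.g3_eq k1 i' gal
  have g0 := P004K.Gm.idx_pos D.par.lat ((P004K.Gm.hom_inv (Rat.cast_ne_zero.2 k1) Λ).symm.isLat h)
    fun z hz => (P004K.Gm.mem_inv (Rat.cast_ne_zero.2 k1)).2 (Hi.le_of i' z hz)
  change 0 < P004K.dg ((k : ℚ) : ℂ) D.Λ Λ at g0
  generalize P004K.dg ((k : ℚ) : ℂ) D.Λ Λ = g at e1 T2 g0
  have g1 : (g : ℝ) ≠ 0 := Nat.cast_ne_zero.2 g0.ne'
  obtain ⟨p, L, M, Γ, pp, M0, Γ1, Γ2, H⟩ := tg N G a D d β s₀ V y 1 1 rn hAL hV hg hs pl fy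
    (by rwa [one_zsmul]) (by rw [one_zsmul, one_zsmul, hy])
  obtain ⟨M, rfl⟩ := Int.eq_ofNat_of_zero_le M0.le
  have mm : ∀ q : ℕ, q.Prime → (q : ℤ) ∣ 2 * (4 * D.A ^ 3 + 27 * D.B ^ 2) →
      q ∈ (2 * (4 * D.A ^ 3 + 27 * D.B ^ 2)).natAbs.primeFactors := fun q a j =>
    Nat.mem_primeFactors.2 ⟨a, Int.natCast_dvd.1 j,
      Int.natAbs_ne_zero.2 (mul_ne_zero two_ne_zero D.par.disc)⟩
  obtain ⟨b, hb⟩ := ((fin.union ma).union (T ∪
    (2 * (4 * D.A ^ 3 + 27 * D.B ^ 2)).natAbs.primeFactors).finite_toSet).bddAbove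
  refine ⟨_, ψ y, p', fun g => by rw [← gal, fy], fun e => mul_ne_zero g1 y0
    (e1.symm.trans ((Cn.hh_zero p' (Wm.hD_Qb hD)).2 e)), M, L + N + b,
    insert p (T ∪ (2 * (4 * D.A ^ 3 + 27 * D.B ^ 2)).natAbs.primeFactors), Γ, by omega,
    fun q m => ?_, Γ1, Γ2, fun l P φ n W lt o f m w w0 => ?_⟩
  · simp only [Finset.mem_insert, Finset.mem_union] at m
    exact m.elim (· ▸ pp) fun m => m.elim (T1 q) Nat.prime_of_mem_primeFactors
  have nm := fun m => (hb m).not_gt (show b < l by omega)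
  have a1 : al A B l = a l := by_contra fun e => nm (Or.inl (Or.inl ⟨o.1, e⟩))
  have a2 : al D.A D.B l = a l := by_contra fun e => nm (Or.inl (Or.inr ⟨o.1, e⟩))
  have a3 := (triv N G a rn l o.1 fun j => (Nat.le_of_dvd rn.pos j).not_gt (by omega)).1
  have k2 := k1_np (fun j => nm (Or.inr (Finset.mem_union_right _ (mm l o.1 j)))) o f (fy φ)
  rw [a2] at k2
  have fN : ∀ g, ga g ((l + 1 - a l) • y) = (l + 1 - a l) • y := fun g => by rw [map_zsmul, fy]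
  obtain ⟨z, z1, z2⟩ := H l _ W (fun x => x.val) P φ _ (by omega) o f m w
    (w0 p (Finset.mem_insert_self _ _)) (fun q a j => w0 q (Finset.mem_insert_of_mem
      (Finset.mem_union_right _ (mm q a (not_not.1 j))))) (by simp) (by simp) (Bx.xp_rx fN)
    (dvd_den o fN k2 fun e => nt (isOfFinAddOrder_iff_zsmul_eq_zero.2 ⟨_, by omega, e⟩))
  have e2 := (T2 _ l P W _ o (fun j => nm (Or.inr (Finset.mem_union_left _ j))) w.neg w.mul
    (fun q j => w0 q (Finset.mem_insert_of_mem (Finset.mem_union_left _ j))) fN k2).2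
  refine ⟨g * z, ?_, ?_⟩
  · have : (g : ℂ) ≠ 0 := Nat.cast_ne_zero.2 g0.ne'
    have := Complex.ofReal_ne_zero.2 y0
    rw [e1]
    push_cast at z1 ⊢
    field_simp
    linear_combination z1
  · rw [a1, ← map_zsmul, e2, nsmul_eq_mul, nu]
    push_cast at z2 ⊢
    linear_combination g * z2

end Vale.Agent.P014T.Nd
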