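import Mathlib

/-! # P014T, row T4: discrete logarithms -/

set_option linter.all false

namespace Vale.Agent.P014T.Nd

theorem ex_lam {l n : ℕ} (hl : l.Prime) (h : 2 ^ n ∣ l - 1) : ∃ lam : ZMod l → ZMod (2 ^ n),
    lam 0 = 0 ∧ (∀ a b, a ≠ 0 → b ≠ 0 → lam (a * b) = lam a + lam b) ∧ (∃ x, x ≠ 0 ∧ lam x = 1) ∧
    ∀ x, x ≠ 0 → ∀ b ≤ n, (x ^ ((l - 1) / 2 ^ b) = 1 ↔ 2 ^ b ∣ (lam x).val) := by
  classical
  have := Fact.mk hl
  obtain ⟨γ, hγ⟩ := IsCyclic.exists_monoid_generator (α := (ZMod l)ˣ)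
  have o : orderOf (γ : ZMod l) = l - 1 := by
    rw [orderOf_units, orderOf_eq_card_of_forall_mem_powers hγ, Nat.card_eq_fintype_card,
      ZMod.card_units]
  have ex : ∀ x : ZMod l, ∃ k : ℕ, (x = 0 → k = 0) ∧ (x ≠ 0 → (γ : ZMod l) ^ k = x) := fun x => by
    by_cases x0 : x = 0
    · exact ⟨0, fun _ => rfl, fun e => absurd x0 e⟩
    · obtain ⟨k, e⟩ := hγ (Units.mk0 x x0)
      exact ⟨k, fun e => absurd e x0, fun _ => by simpa using congrArg Units.val e⟩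
  choose k k0 hk using ex
  have md : ∀ i j : ℕ, (γ : ZMod l) ^ i = γ ^ j → (i : ZMod (2 ^ n)) = j := fun i j e => by
    rw [← Units.val_pow_eq_pow_val, ← Units.val_pow_eq_pow_val, Units.val_inj,
      pow_eq_pow_iff_modEq, ← orderOf_units, o] at e
    exact (ZMod.natCast_eq_natCast_iff _ _ _).2 (e.of_dvd h)
  refine ⟨fun x => k x, by simp [k0 0 rfl], fun a b a0 b0 => ?_,
    ⟨γ, γ.ne_zero, by simpa using md (k γ) 1 (by rw [hk _ γ.ne_zero, pow_one])⟩,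
    fun x x0 b hb => ?_⟩
  · rw [← Nat.cast_add]
    exact md _ _ (by rw [pow_add, hk a a0, hk b b0, hk _ (mul_ne_zero a0 b0)])
  · obtain ⟨m, hm⟩ := (pow_dvd_pow 2 hb).trans h
    have m0 : 0 < m := Nat.pos_of_ne_zero fun e => by
      have := hl.two_le
      rw [e] at hm
      omega
    conv_lhs => rw [← hk x x0]
    rw [← pow_mul, ← orderOf_dvd_iff_pow_eq_one, o, hm, Nat.mul_div_cancel_left _ (by positivity),
      Nat.mul_dvd_mul_iff_right m0, ZMod.val_natCast, Nat.dvd_mod_iff (pow_dvd_pow 2 hb)]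

end Vale.Agent.P014T.Nd
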