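import Vale.Agent.P014T.Bx.Ph

/-! # P014T, row T4: the tame height is quadratic -/

set_option linter.all false

open scoped Classical

noncomputable section

namespace Vale.Agent.P014T.Nd

open NumberField Real
open Vale.Agent.P004H.H666 Vale.Agent.P004Z.H
open Vale.Agent.P022 (Qb GQ)
open Vale.Agent.P022E.GW (Ov)
open Vale.Agent.P004K (K1)
open Vale.Agent.P004M.TE hiding Qb GQ Fb
open Bx P027M.K

variable {A B : ℤ} {l : ℕ} {L : Ideal (𝓞 Qb)} {M : Type} [AddCommGroup M] {lam : ZMod l → M}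

/-- logarithms which kill the bad primes -/
structure Lb (A B : ℤ) (l : ℕ) (lam : ZMod l → M) : Prop where
  gd : ¬ (l : ℤ) ∣ 2 * (4 * A ^ 3 + 27 * B ^ 2)
  neg : lam (-1) = 0
  mul : ∀ x y, x ≠ 0 → y ≠ 0 → lam (x * y) = lam x + lam y
  bad : ∀ q : ℕ, q.Prime → (q : ℤ) ∣ 2 * (4 * A ^ 3 + 27 * B ^ 2) → lam q = 0

namespace Lb

variable (h : Lb A B l lam) (hl : l.Prime)
include h hl

theorem one : lam 1 = 0 := by
  have := Fact.mk hl
  exact left_eq_add.1 ((congrArg lam (mul_one 1).symm).trans (h.mul 1 1 one_ne_zero one_ne_zero))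

theorem int {a : ℤ} (a0 : a ≠ 0)
    (e : ∀ q : ℕ, q.Prime → (q : ℤ) ∣ a → (q : ℤ) ∣ 2 * (4 * A ^ 3 + 27 * B ^ 2)) :
    (a : ZMod l) ≠ 0 ∧ lam a = 0 := by
  have := Fact.mk hl
  have nz : ∀ a : ℤ, (∀ q : ℕ, q.Prime → (q : ℤ) ∣ a → (q : ℤ) ∣ 2 * (4 * A ^ 3 + 27 * B ^ 2)) →
      (a : ZMod l) ≠ 0 := fun a e k => h.gd (e l hl ((ZMod.intCast_zmod_eq_zero_iff_dvd _ _).1 k))
  refine ⟨nz a e, ?_⟩
  induction a using UniqueFactorizationMonoid.induction_on_prime with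
  | h₁ => exact absurd rfl a0
  | h₂ a u => rcases Int.isUnit_iff.1 u with rfl | rfl <;> simp [h.one hl, h.neg]
  | h₃ a p a1 hp ih =>
    have e1 := fun (q : ℕ) m (d : (q : ℤ) ∣ a) => e q m (d.mul_left p)
    have e2 := fun (q : ℕ) m (d : (q : ℤ) ∣ p) => e q m (d.mul_right a)
    have pq := Int.prime_iff_natAbs_prime.1 hp
    have z := h.bad _ pq (e2 _ pq (Int.natAbs_dvd.2 dvd_rfl))
    rw [Int.cast_mul, h.mul _ _ (nz p e2) (nz a e1), ih a1 e1, add_zero]
    rcases Int.natAbs_eq p with k | k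
    · rwa [k, Int.cast_natCast]
    · rw [k, Int.cast_neg, Int.cast_natCast, ← neg_one_mul, h.mul _ _ (neg_ne_zero.2 one_ne_zero)
        (by simpa using nz p.natAbs fun q m d => e2 q m (Int.dvd_natAbs.1 d)), h.neg, z, add_zero]

end Lb

theorem vi {v : AbsoluteValue Qb ℝ} (a : Av L v) (z : ℤ) : v (algebraMap ℚ Qb z) ≤ 1 := by
  rw [map_intCast]; exact a.na.apply_intCast_le_one

/-- **the parallelogram law** -/
theorem par_nu (h : Lb A B l lam) (o : Ov l L) {P Q : Pt A B} (hP : ∀ g, ga g P = P)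
    (hQ : ∀ g, ga g Q = Q) (kP : K1 L P) (kQ : K1 L Q) :
    lam (nu (P + Q)) + lam (nu (P - Q)) = 2 • lam (nu P) + 2 • lam (nu Q) := by
  have hD : 4 * A ^ 3 + 27 * B ^ 2 ≠ 0 := fun e => h.gd (by simp [e])
  have hS : ∀ g, ga g (P + Q) = P + Q := fun g => by rw [map_add, hP, hQ]
  have hT : ∀ g, ga g (P - Q) = P - Q := fun g => by rw [map_sub, hP, hQ]
  obtain ⟨r, hr⟩ : ∃ r : ℚ, algebraMap ℚ Qb r = cc P Q := mem_KQ.2 fun g => by rw [← cc_ga, hP, hQ]
  have c0 := cc_ne (hDb hD) P Q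
  obtain ⟨c, hc⟩ : ∃ c : ℚ, (c : Qb) = cc P Q * ((rx P).den * (rx Q).den) ^ 2 /
      ((rx (P + Q)).den * (rx (P - Q)).den) :=
    ⟨r * ((rx P).den * (rx Q).den) ^ 2 / ((rx (P + Q)).den * (rx (P - Q)).den), by
      rw [← hr]; simp⟩
  have d := fun X : Pt A B => den_ne (rx X)
  have c1 : (c : Qb) ≠ 0 := hc ▸ div_ne_zero (mul_ne_zero c0 (pow_ne_zero 2
    (mul_ne_zero (d _) (d _)))) (mul_ne_zero (d _) (d _))
  have un : ∀ q : ℕ, q.Prime → (q : ℤ) ∣ c.num ∨ (q : ℤ) ∣ c.den →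
      (q : ℤ) ∣ 2 * (4 * A ^ 3 + 27 * B ^ 2) := fun q m k => by_contra fun hl => by
    have := Fact.mk m
    have o : Ov q _ := ⟨m, P022D.Loc2.PP_prime q, P022D.Loc2.p_mem_PP q⟩
    obtain ⟨v, a⟩ := ex_av o
    have hp := Nat.prime_iff_prime_int.1 o.1
    have vD : v (16 * (4 * algebraMap ℚ Qb A ^ 3 + 27 * algebraMap ℚ Qb B ^ 2)) = 1 := by
      have := (a.int o (2 ^ 3 * (2 * (4 * A ^ 3 + 27 * B ^ 2)))).2 fun k =>
        hl ((hp.dvd_or_dvd k).elim (fun k => (hp.dvd_of_dvd_pow k).mul_right _) id)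
      rw [← this, map_intCast, map_intCast]
      exact congrArg v (by push_cast; ring)
    have e := par_good a.na (vi a A) (vi a B) vD P Q
    rw [← a.lv_dn o hS, ← a.lv_dn o hT, ← a.lv_dn o hP, ← a.lv_dn o hQ] at e
    have e1 : v c = 1 := by
      rw [← vl_um c1]
      refine lv_zero ?_
      simp only [dn, map_neg, lv_um (d _), lv_um c0, nsmul_eq_mul] at e
      have n := fun X => v.ne_zero (d X)
      rw [lv_um c1, hc, map_div₀, map_mul, map_pow, map_mul, map_mul, log_div (mul_ne_zero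
        (v.ne_zero c0) (pow_ne_zero 2 (mul_ne_zero (n _) (n _)))) (mul_ne_zero (n _) (n _)),
        log_mul (v.ne_zero c0) (pow_ne_zero 2 (mul_ne_zero (n _) (n _))), log_pow,
        log_mul (n _) (n _), log_mul (n _) (n _)]
      push_cast at e ⊢
      linarith
    rw [Rat.cast_def, map_div₀, div_eq_one_iff_eq (v.ne_zero (den_ne c))] at e1
    have e2 := (a.num_den o c).elim (fun j => And.intro j (e1 ▸ j)) fun j => ⟨e1.trans j, j⟩
    exact k.elim ((a.int o _).1 e2.1) ((a.int o _).1 (by simpa using e2.2))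
  obtain ⟨n0, n1⟩ := h.int o.1 (a := c.num) (Rat.num_ne_zero.2 (Rat.cast_ne_zero.1 c1))
    fun q m k => un q m (Or.inl k)
  obtain ⟨d0, d1⟩ := h.int o.1 (a := c.den) (Int.natCast_ne_zero.2 c.den_nz)
    fun q m k => un q m (Or.inr k)
  obtain ⟨v, a⟩ := ex_av o
  have uP := nu_unit o hP kP
  have uQ := nu_unit o hQ kQ
  have uS := nu_unit o hS ((K1s hD o).add_mem kP kQ)
  have uT := nu_unit o hT ((K1s hD o).sub_mem kP kQ)
  have e := mul_lt (x := ((c.den * (nu P * nu Q) ^ 2 : ℤ) : Qb)) a.na.apply_intCast_le_one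
    (par_one a.na (vi a A) (vi a B) (hDb hD) (a.k1 o kP) (a.k1 o kQ))
  have ne : ∀ {a : ℤ}, ¬ (l : ℤ) ∣ a → (a : Qb) ≠ 0 := fun h =>
    Int.cast_ne_zero.2 fun e => h (e ▸ dvd_zero _)
  have e3 : (l : ℤ) ∣ c.num * (nu (P + Q) * nu (P - Q)) - c.den * (nu P * nu Q) ^ 2 :=
    by_contra fun k => e.ne (by
      rw [← (a.int o _).2 k, xp_rx hS, xp_rx hT, xp_rx hP, xp_rx hQ]
      refine congrArg v ?_
      have := ne uP
      have := ne uQ
      have := d P
      have := d Q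
      have := d (P + Q)
      have := d (P - Q)
      rw [Rat.cast_def, div_eq_iff (den_ne c)] at hc
      simp only [Rat.cast_def (rx _)]
      push_cast
      rw [hc]
      simp only [nu] at *
      field_simp)
  have := Fact.mk o.1
  have z : ∀ {a : ℤ}, ¬ (l : ℤ) ∣ a → (a : ZMod l) ≠ 0 := fun h =>
    mt (ZMod.intCast_zmod_eq_zero_iff_dvd _ _).1 h
  rw [← ZMod.intCast_zmod_eq_zero_iff_dvd, Int.cast_sub, sub_eq_zero] at e3
  have e4 := congrArg lam e3
  have zz := mul_ne_zero (z uP) (z uQ)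
  simp only [Int.cast_mul, sq] at e4
  rw [h.mul _ _ n0 (mul_ne_zero (z uS) (z uT)), h.mul _ _ d0 (mul_ne_zero zz zz), n1, d1,
    h.mul _ _ zz zz, h.mul _ _ (z uS) (z uT), h.mul _ _ (z uP) (z uQ)] at e4
  linear_combination (norm := module) e4

/-- **the tame height is quadratic** -/
theorem sq_nu (h : Lb A B l lam) (o : Ov l L) {P : Pt A B} (hP : ∀ g, ga g P = P) (kP : K1 L P)
    (k : ℤ) : lam (nu (k • P)) = k ^ 2 • lam (nu P) := by
  have hD : 4 * A ^ 3 + 27 * B ^ 2 ≠ 0 := fun e => h.gd (by simp [e])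
  have e : ∀ k : ℤ, lam (nu ((k + 1) • P)) + lam (nu ((k - 1) • P)) =
      2 • lam (nu (k • P)) + 2 • lam (nu P) := fun k => by
    rw [add_zsmul, sub_zsmul, one_zsmul, ← sub_eq_add_neg]
    exact par_nu h o (fun g => by rw [map_zsmul, hP]) hP ((K1s hD o).zsmul_mem kP k) kP
  have e0 : lam (nu ((0 : ℤ) • P)) = 0 := by
    rw [zero_zsmul, nu, rx_of (r := 1) (by rw [xp_zero, Rat.cast_one])]
    simpa using h.one o.1
  suffices s : lam (nu (k • P)) = k ^ 2 • lam (nu P) ∧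
    lam (nu ((k + 1) • P)) = (k + 1) ^ 2 • lam (nu P) from s.1
  induction k using Int.induction_on with
  | zero => exact ⟨by simpa using e0, by simp⟩
  | succ k ih =>
    have := e (k + 1)
    rw [add_sub_cancel_right, ih.1, ih.2] at this
    exact ⟨ih.2, by linear_combination (norm := module) this⟩
  | pred k ih =>
    have := e (-k)
    rw [ih.1, ih.2] at this
    exact ⟨by linear_combination (norm := module) this, by rw [sub_add_cancel, ih.1]⟩

end Vale.Agent.P014T.Nd
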