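import Vale.Agent.P014T.Nd.Chg
import Vale.Agent.P014T.Nd.Rd
import Vale.Agent.P014T.Nd.Lam
import Vale.Agent.P014T.Nd.Par

/-!
# P014T, row T4: primes at which the tame height of a point has bounded valuation
-/

set_option linter.all false

open scoped Classical

noncomputable section

namespace Vale.Agent.P014T.Nd

open Matrix NumberField
open Vale.Agent.P022 (Qb GQ)
open Vale.Agent.P022D.W (dec phi_mem)
open Vale.Agent.P022E.GW (Ov Fb Gn)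
open Vale.Agent.P004S (wp)
open Vale.Agent.P004S.Ga (K O)
open Vale.Agent.P004S.Aq
open Vale.Agent.P004F (hq)
open Vale.Agent.P004F.Rc (hn hn_mul eul cy_fb nat_iff)
open Vale.Agent.P004K (K1)
open Vale.Agent.P004M.TE hiding Qb GQ Fb
open Sy Bx

variable {A B : ℤ} {S : Finset ℕ} {n m l : ℕ} {g : GQ} {L : Ideal (𝓞 Qb)}

theorem Fz.mono (h : Fz S n g) (e : m ≤ n) : Fz S m g := fun y hy => by
  obtain ⟨k, rfl⟩ := Nat.exists_eq_add_of_le' e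
  obtain ⟨z, rfl⟩ := ex_rt k y
  rw [map_pow, h z]
  rwa [← pow_mul, ← pow_mul, ← pow_add, ← pow_add, ← add_assoc] at hy

theorem fz_open (S : Finset ℕ) (n : ℕ) : IsOpen {g | Fz S n g} := by
  have f : ∀ (k : ℕ) (c : Qb), {y : Qb | y ^ 2 ^ k = c}.Finite := fun k c =>
    (Polynomial.nthRoots (2 ^ k) c).toFinset.finite_toSet.subset fun y hy => by
      simpa [Polynomial.mem_nthRoots (show 0 < 2 ^ k by positivity)] using hy
  have := ((f (n + 1) 1).union (S.finite_toSet.biUnion fun v _ => f n v)).isOpen_biInter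
    fun y _ => open_fix 1 y
  refine (congrArg IsOpen (Set.ext fun g => ?_)).mp this
  simp [Fz]

/-- the elements of `Γ` which fix all the roots -/
def Hs (S : Finset ℕ) (Γ : Subgroup GQ) : Subgroup GQ where
  carrier := {g | g ∈ Γ ∧ ∀ n, Fz S n g}
  mul_mem' {a b} ha hb := ⟨mul_mem ha.1 hb.1, fun n y hy => by
    rw [AlgEquiv.mul_apply, hb.2 n y hy, ha.2 n y hy]⟩
  one_mem' := ⟨one_mem _, fun _ _ _ => rfl⟩
  inv_mem' {a} ha := ⟨inv_mem ha.1, fun n y hy => by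
    conv_lhs => rw [← ha.2 n y hy]
    exact a.symm_apply_apply y⟩

theorem hs_normal (S : Finset ℕ) (Γ : Subgroup GQ) [h : Γ.Normal] : (Hs S Γ).Normal :=
  ⟨fun a ha x => ⟨h.conj_mem a ha.1 x, fun n y hy => by
    rw [AlgEquiv.mul_apply, AlgEquiv.mul_apply, ha.2 n _ (hy.imp
      (fun e => by rw [← map_pow, e, map_one])
      (Exists.imp fun v e => ⟨e.1, by rw [← map_pow, e.2, map_natCast]⟩))]
    exact x.apply_symm_apply y⟩⟩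

theorem hs_cy {Γ : Subgroup GQ} (h : g ∈ Hs S Γ) : cy g = 1 :=
  sub_eq_zero.1 (tendsto_nhds_unique tendsto_const_nhds (to_zero fun n => (h.2 n).cy))

theorem Fz.dvd (h : Fz S n g) (o : Ov l L) (l2 : l ≠ 2) (f : Fb l L g) : 2 ^ (n + 1) ∣ l - 1 := by
  have a := h (ex (hn (n + 1))) (Or.inl (ex_prim' _).pow_eq_one)
  rw [ex_cy, ex_eq] at a
  refine (nat_iff _ _).1 (O_of (sub_mem a (cy_fb o l2 f (n + 1))) ?_)
  rw [Nat.cast_sub o.1.one_le]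
  push_cast
  ring

theorem eul' (o : Ov l L) (l2 : l ≠ 2) (f : Fb l L g) (d : 2 ^ n ∣ l - 1) {β : Qb} {b : ℕ}
    (hb : β ^ 2 ^ n = b) (nd : ¬ l ∣ b) : g β = β ↔ (b : ZMod l) ^ ((l - 1) / 2 ^ n) = 1 :=
  eul o l2 hb nd fun x => by
    rw [Nat.mul_div_cancel' d, Nat.sub_add_cancel o.1.one_le]
    exact f x

theorem t0 (hD : 4 * A ^ 3 + 27 * B ^ 2 ≠ 0) {P : Pt A B} (hP : ∀ g, ga g P = P)
    (nt : ¬ IsOfFinAddOrder P) (sp : ∀ q ∈ S, q.Prime)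
    (hS : ∀ l : ℕ, l.Prime → l ∉ S → ¬ (l : ℤ) ∣ 2 * (4 * A ^ 3 + 27 * B ^ 2)) {Γ : Subgroup GQ}
    (op : IsOpen (Γ : Set GQ)) [Γ.Normal] : ∃ b : ℕ, ∀ (n : ℕ) (F : Finset ℕ), b ≤ n →
      ∃ (l : ℕ) (L : Ideal (𝓞 Qb)) (φ : GQ), l ∉ F ∧ l ∉ S ∧ Ov l L ∧ Fb l L φ ∧ φ ∈ Γ ∧
        Fz S n φ ∧ ¬ 2 ^ b ∣ l + 1 - al A B l ∧ ∀ Q, Q = (l + 1 - al A B l) • P →
          K1 L Q ∧ ¬ ((nu Q : ZMod l) ^ ((l - 1) / 2 ^ b) = 1 ∧
            (nu (Q + Q) : ZMod l) ^ ((l - 1) / 2 ^ b) = 1) := by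
  have h2 : 2 ∈ S := by_contra fun k => hS 2 Nat.prime_two k (dvd_mul_right _ _)
  have r := P004F.En.rep_ok (hq hD) h2 hS
  obtain ⟨k, bk⟩ := P004F.En.big (hq hD)
  obtain ⟨u, -, bu, hu⟩ := bk.kum r (P004S.cyc_ep _ _ r) (Γ := ⊤) isOpen_univ
    (fun w hw => (r.irr w hw).imp fun x h => ⟨trivial, h⟩) {a | ∃ v ∈ S, a = v}
    (by rintro _ ⟨v, m, rfl⟩; exact ⟨Nat.cast_ne_zero.2 (sp v m).ne_zero, fun g _ => map_natCast g v⟩)
  obtain ⟨j, j0, -, hj⟩ := Subgroup.exists_pow_mem_of_index_ne_zero (P004S.idx_ne op) u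
  have uH : u ^ j ∈ Hs S Γ := ⟨hj, ((Hs S ⊤).pow_mem ⟨trivial, fun n y hy =>
    hy.elim (fun e => hu _ y (Or.inl e)) fun e => hu _ y (Or.inr e)⟩ j).2⟩
  obtain ⟨D, h, rfl⟩ := ex_dp (hq hD) hP
  choose w wo hw using bx hD
  have pc : ∀ n R, (∀ g, ga g (2 ^ n • R) = 2 ^ n • R) → ∃ φ, Pc (hq hD) S n (4 * w n) R φ ∧
      ∀ (l : ℕ) (L : Ideal (𝓞 Qb)), Ov l L → l ≠ 2 → K1 L (2 ^ n • R) → K1 L R →
        (∀ g ∈ dec L, ga g R = R) → ∃ β : Qb, β ≠ 0 ∧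
          β ^ 2 ^ n * (nu (2 ^ n • R + 2 ^ n • R) ^ 2 : ℤ) =
            ((nu (2 ^ n • R) * nu (2 ^ n • R)) ^ 2 : ℤ) ∧ ∀ g ∈ dec L, φ g - ku β g ∈ O :=
    fun n R e => (hw n R R e e).imp fun φ ⟨a, b, c, d, e⟩ =>
      ⟨⟨a.continuous, b, c, fun l m P o i hi => d l P o (hS l o.1 m) i hi⟩, e⟩
  choose φ₀ F₀ _ using fun n => pc n (D n) fun g => by rw [h.pow, h.fix]
  have κi : ∀ n, (4 * w n : K) ∈ O := fun n => O_of (O_int (4 * w n)) (by push_cast; rfl)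
  have := hs_normal S Γ
  obtain ⟨g, hg, b, b1, b2⟩ := lim (rh (hq hD)) (Hs S Γ) r.irr
    (fun g m => by rw [rh_det, hs_cy m]) uH
    (fun k k0 => by rw [← pow_mul]; exact (bu.pow r (mul_pos j0 k0).ne').ne)
    (fun g => co (hq hD) (h.kt g)) (fun x y => by rw [h.mul, co_add, co_rho, rh_eq])
    (h.ncob (hq hD) nt) (fun n => 4 * w n) κi (j := 3) (fun n e => by
      obtain ⟨c, hc⟩ := wo n
      exact half_not (O_of (sub_mem e (O_int c)) (by rw [hc, hn]; push_cast; ring)))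
    (fun n g => 2 ^ n * φ₀ n g) (fun n => (F₀ n).lev) fun n x hx y _ =>
      O_of ((F₀ n).d' _ (κi n) (h.cp n) x y) (by
        rw [hs_cy hx]
        linear_combination (φ₀ n x + φ₀ n y - φ₀ n (x * y)) * hn_mul n)
  refine ⟨3 * b + 1, fun n F bn => ?_⟩
  obtain ⟨n', nn, b3⟩ := b2 n
  have oc : ∀ {f : GQ → K}, Continuous f → IsOpen {x | f x ∉ O} := fun c =>
    (O.isClosed_of_isOpen O_open).isOpen_compl.preimage c
  have c1 := rh_cont (hq hD)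
  have c2 := h.cont (hq hD)
  have c3 := (F₀ n').cont
  obtain ⟨l, φ, lp, lm, ⟨L, o1, o2, f⟩, ⟨m1, m2⟩, m3, m4⟩ := P022K.Cheb.exists_fr
    ((op.inter (fz_open S n')).inter ((oc (f := fun x => hn b * (2 - (rh (hq hD) x).trace)) (by
      simp only [trace_fin_two]; fun_prop)).inter (oc (f := fun x => hn b * hh (rh (hq hD))
        (fun g => co (hq hD) (h.kt g)) (4 * w n') (fun g => 2 ^ n' * φ₀ n' g) x) (by
      simp only [hh, wp, trace_fin_two, mulVec, dotProduct, Fin.sum_univ_two]; fun_prop))))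
    (g := g) ⟨⟨hg.1, hg.2 n'⟩, b1, b3⟩ (F ∪ S)
  rw [Finset.mem_union, not_or] at lm
  have o : Ov l L := ⟨lp, o1, o2⟩
  have l2 : l ≠ 2 := fun e => lm.2 (e ▸ h2)
  have gd := hS l lp lm.2
  have := Fact.mk lp
  obtain ⟨t1, t2⟩ := frob_mt (hq hD) gd ⟨L, o1, o2, f⟩
  have t3 : (rh (hq hD) φ).trace = al A B l := by
    rw [rh_eq, P004S.mt, rep_val, RingHom.mapMatrix_apply, ← AddMonoidHom.map_trace, t1, al_eq gd]
    simp
  have t4 : cy φ = l := by rw [cy_apply, ← Ki.det_mt (hq hD), t2, PadicInt.coe_natCast]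
  have k1 := k1_np gd o f (h.fix φ)
  refine ⟨l, L, φ, lm.1, lm.2, o, f, m1, Fz.mono m2 nn, ?_⟩
  generalize hN : (l : ℤ) + 1 - al A B l = N at k1 ⊢
  have eN : (N : K) = 1 - (rh (hq hD) φ).trace + cy φ := by rw [t3, t4, ← hN]; push_cast; ring
  have nb : hn b * N ∉ O := fun e => m3 (O_of (sub_mem e (Fz.mono m2 (show b ≤ n' by omega)).cy)
    (by rw [eN]; ring))
  refine ⟨fun ⟨c, e⟩ => nb (O_of (O_int (2 ^ (2 * b + 1) * c)) (by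
      rw [e]; push_cast; linear_combination (2 ^ (2 * b + 1) * c : K) * hn_mul b)), ?_⟩
  rintro _ rfl
  refine ⟨k1, fun ⟨e1, e2⟩ => m4 ?_⟩
  have fN : ∀ g, ga g (N • D 0) = N • D 0 := fun g => by rw [map_zsmul, h.fix]
  obtain ⟨R, r1, r2, r3⟩ := div1 hD o l2 k1 (fun g _ => fN g) n'
  obtain ⟨ψ, Fψ, lo⟩ := pc n' R (r3 ▸ fN)
  obtain ⟨β, β0, hβ, lk⟩ := lo l L o l2 (r3 ▸ k1) r1 r2
  have md := phi_mem lp o1 f
  have ch := chg (hq hD) h2 hS h (κi n') (F₀ n') Fψ r3 m2 (r2 φ md) eN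
  rw [r3] at hβ
  have u1 := nu_unit o fN k1
  have u2 := nu_unit o (X := N • D 0 + N • D 0) (fun g => by rw [map_add, fN])
    ((K1s hD o).add_mem k1 k1)
  generalize nu (N • D 0 + N • D 0) = a₂ at hβ u2 e2
  generalize nu (N • D 0) = a₁ at hβ u1 e1
  obtain ⟨k, rfl⟩ : ∃ k, n' = k + (3 * b + 1) := Nat.exists_eq_add_of_le' (bn.trans nn)
  obtain ⟨i, hi⟩ : ∃ i, 2 ^ (3 * b) = i + 1 := Nat.exists_eq_succ_of_ne_zero (by positivity)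
  have a0 : (a₂ : Qb) ≠ 0 := Int.cast_ne_zero.2 fun e => u2 (e ▸ dvd_zero _)
  have cs : ∀ {R : Type} [CommRing R], (((a₁ ^ 2 * a₂ ^ i).natAbs ^ 2 : ℕ) : R) =
      (a₁ ^ 2 * a₂ ^ i) ^ 2 := fun {R} _ => by
    rw [← Int.cast_natCast, Nat.cast_pow, Int.natAbs_sq]; push_cast; rfl
  have fx := (eul' o l2 f (n := 3 * b + 1) (β := β ^ 2 ^ k * a₂)
    (b := (a₁ ^ 2 * a₂ ^ i).natAbs ^ 2)
    ((pow_dvd_pow 2 (by omega)).trans (Fz.dvd m2 o l2 f)) (by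
      rw [cs, mul_pow, ← pow_mul, ← pow_add, pow_succ 2 (3 * b), hi]
      push_cast at hβ
      linear_combination (a₂ : Qb) ^ (i * 2) * hβ) (fun d => by
      have p := Nat.prime_iff_prime_int.1 lp
      exact (p.dvd_or_dvd (Int.natCast_dvd.2 (lp.dvd_of_dvd_pow d))).elim
        (fun d => u1 (p.dvd_of_dvd_pow d)) fun d => u2 (p.dvd_of_dvd_pow d))).2 (by
      rw [cs, pow_right_comm, mul_pow, pow_right_comm _ 2, pow_right_comm _ i, e1, e2]; simp)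
  have sp := (ku_spec (n := k + (3 * b + 1)) β0 (g := φ) (by
    rw [eq_div_of_mul_eq (Int.cast_ne_zero.2 (pow_ne_zero 2 (Int.cast_ne_zero.1 a0))) hβ,
      map_div₀, map_intCast, map_intCast])).1
  rw [map_mul, map_intCast, mul_left_inj' a0, map_pow, sp, mul_pow,
    mul_eq_right₀ (pow_ne_zero _ β0), ex_root] at fx
  have z : hn (3 * b + 1) * (N ^ 2 * hh (rh (hq hD)) (fun g => co (hq hD) (h.kt g))
      (4 * w (k + (3 * b + 1))) (fun g => 2 ^ (k + (3 * b + 1)) * φ₀ (k + (3 * b + 1)) g) φ) ∈ O :=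
    O_of (sub_mem (O_mul (O_int N) (add_mem fx (O_mul (O_pow k) (lk φ md)))) (O_mul (O_pow k) ch))
      (by rw [← hn_add (3 * b + 1) k, add_comm (3 * b + 1) k]; ring)
  rw [hn_iff, not_le] at nb
  rw [hn_iff, norm_mul, norm_pow] at z
  rw [hn_iff]
  by_contra c
  rw [not_le] at c
  have p : (0 : ℝ) < 2⁻¹ ^ b := by positivity
  have q := mul_lt_mul'' (pow_lt_pow_left₀ nb p.le two_ne_zero) c (by positivity) p.le
  have : (2⁻¹ : ℝ) ^ (3 * b + 1) = ((2⁻¹ ^ b) ^ 2 * 2⁻¹ ^ b) / 2 := by ring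
  have p3 : (0 : ℝ) < (2⁻¹ ^ b) ^ 2 * 2⁻¹ ^ b := by positivity
  linarith

/-- **row T4** -/
theorem t4 (hD : 4 * A ^ 3 + 27 * B ^ 2 ≠ 0) {P : Pt A B} (hP : ∀ g, ga g P = P)
    (nt : ¬ IsOfFinAddOrder P) (sp : ∀ q ∈ S, q.Prime) {Γ : Subgroup GQ}
    (op : IsOpen (Γ : Set GQ)) (nm : Γ.Normal) : ∃ b : ℕ, ∀ (n : ℕ) (F : Finset ℕ), b ≤ n →
      ∃ (l : ℕ) (L : Ideal (𝓞 Qb)) (φ : GQ) (lam : ZMod l → ZMod (2 ^ n)), l ∉ F ∧ l ∉ S ∧
        Ov l L ∧ Fb l L φ ∧ φ ∈ Γ ∧ 2 ^ (n + 1) ∣ l - 1 ∧ lam 0 = 0 ∧ Lb A B l lam ∧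
        (∀ q ∈ S, lam q = 0) ∧ (∃ x, x ≠ 0 ∧ lam x = 1) ∧ ¬ 2 ^ b ∣ l + 1 - al A B l ∧
        K1 L ((l + 1 - al A B l) • P) ∧
        ¬ 2 ^ b ∣ (lam (nu ((l + 1 - al A B l) • P))).val := by
  have d0 : (2 * (4 * A ^ 3 + 27 * B ^ 2)).natAbs ≠ 0 :=
    Int.natAbs_ne_zero.2 (mul_ne_zero two_ne_zero hD)
  have mm : ∀ q : ℕ, q.Prime → (q : ℤ) ∣ 2 * (4 * A ^ 3 + 27 * B ^ 2) →
      q ∈ S ∪ (2 * (4 * A ^ 3 + 27 * B ^ 2)).natAbs.primeFactors := fun q a k =>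
    Finset.mem_union_right _ (Nat.mem_primeFactors.2 ⟨a, Int.natCast_dvd.1 k, d0⟩)
  have sq : ∀ q ∈ S ∪ (2 * (4 * A ^ 3 + 27 * B ^ 2)).natAbs.primeFactors, q.Prime := fun q m =>
    (Finset.mem_union.1 m).elim (sp q) Nat.prime_of_mem_primeFactors
  obtain ⟨b, hb⟩ := t0 hD hP nt sq (fun l a m k => m (mm l a k)) op
  refine ⟨b, fun n F bn => ?_⟩
  obtain ⟨l, L, φ, h1, h2, o, f, h3, h4, h5, h6⟩ := hb n F bn
  obtain ⟨k1, h7⟩ := h6 _ rfl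
  have := Fact.mk o.1
  have l2 : l ≠ 2 := fun e => h2 (e ▸ mm 2 Nat.prime_two (dvd_mul_right _ _))
  have d := h4.dvd o l2 f
  have d' := (pow_dvd_pow 2 n.le_succ).trans d
  obtain ⟨lam, a0, a1, a2, a3⟩ := ex_lam o.1 d'
  have z : ∀ x, x ≠ 0 → x ^ ((l - 1) / 2 ^ n) = 1 → lam x = 0 := fun x x0 e => by
    have := (a3 x x0 n le_rfl).1 e
    rwa [← ZMod.natCast_eq_zero_iff, ZMod.natCast_zmod_val] at this
  have zs : ∀ q ∈ S ∪ (2 * (4 * A ^ 3 + 27 * B ^ 2)).natAbs.primeFactors, lam q = 0 :=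
    fun q m => by
      have nd : ¬ l ∣ q := fun k => h2 ((Nat.prime_dvd_prime_iff_eq o.1 (sq q m)).1 k ▸ m)
      obtain ⟨β, hβ⟩ := ex_rt n (q : Qb)
      exact z _ (mt (ZMod.natCast_eq_zero_iff _ _).1 nd)
        ((eul' o l2 f d' hβ nd).1 (h4 β (Or.inr ⟨q, m, hβ⟩)))
  have lb : Lb A B l lam := ⟨fun k => h2 (mm l o.1 k), z _ (neg_ne_zero.2 one_ne_zero) (by
    obtain ⟨c, e⟩ := d
    rw [e, pow_succ, mul_assoc, Nat.mul_div_cancel_left _ (by positivity), pow_mul, neg_one_sq,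
      one_pow]), a1, fun q a k => zs q (mm q a k)⟩
  refine ⟨l, L, φ, lam, h1, fun m => h2 (Finset.mem_union_left _ m), o, f, h3, d, a0, lb,
    fun q m => zs q (Finset.mem_union_left _ m), a2, h5, k1, fun k => h7 ?_⟩
  generalize (l : ℤ) + 1 - al A B l = N at k k1
  have fN : ∀ g, ga g (N • P) = N • P := fun g => by rw [map_zsmul, hP]
  have u := fun {X : Pt A B} a b =>
    mt (ZMod.intCast_zmod_eq_zero_iff_dvd _ _).1 (nu_unit o (X := X) a b)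
  refine ⟨(a3 _ (u fN k1) b bn).2 k, (a3 _ (u (fun g => by rw [map_add, fN])
    ((K1s hD o).add_mem k1 k1)) b bn).2 ?_⟩
  rw [← two_zsmul, sq_nu lb o fN k1, show (2 : ℤ) ^ 2 = (4 : ℕ) from rfl, natCast_zsmul,
    nsmul_eq_mul, ZMod.val_mul, Nat.dvd_mod_iff (pow_dvd_pow 2 bn)]
  exact k.mul_left _

end Vale.Agent.P014T.Nd
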