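import Vale.Agent.P014T.Sy.Ex
import Vale.Agent.P022K.GW.Has1
import Vale.Agent.P022E.GW.TauG
import Vale.Agent.P004M.TE.Irr

/-!
# P014T, row T4: cocycles in the roots of unity which are unramified outside `S`
-/

set_option linter.all false

noncomputable section

namespace Vale.Agent.P014T.Nd

open NumberField
open Vale.Agent.P022 (Qb GQ)
open Vale.Agent.P027M.S (Inert)
open Vale.Agent.P022E.GW (Ov Fb Gn)
open Vale.Agent.P004S.Ga (K O)
open Vale.Agent.P004S.Aq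
open Vale.Agent.P004F.Rc (eul)
open Vale.Agent.P014T.Sy

/-- `g` fixes the roots of order `2 ^ n` of `± 1` and of the elements of `S` -/
def Fz (S : Finset ℕ) (n : ℕ) (g : GQ) : Prop :=
  ∀ y : Qb, (y ^ 2 ^ (n + 1) = 1 ∨ ∃ v ∈ S, y ^ 2 ^ n = v) → g y = y

/-- `y` is unramified outside `S` -/
def Ur (S : Finset ℕ) (y : Qb) : Prop :=
  ∀ l ∉ S, ∀ P, Ov l P → ∀ i, Inert P i → i y = y

variable {S : Finset ℕ} {n l : ℕ} {g : GQ} {P : Ideal (𝓞 Qb)}

theorem unr_root (o : Ov l P) (h2 : l ≠ 2) {β : Qb} {b : ℕ} (hb : β ^ 2 ^ n = b) (nd : ¬ l ∣ b)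
    {i : GQ} (hi : Inert P i) : i β = β :=
  (eul o h2 hb nd (m := 0) fun x => by simpa using hi x).2 (pow_zero _)

theorem ex_rt (n : ℕ) (b : Qb) : ∃ β : Qb, β ^ 2 ^ n = b :=
  IsAlgClosed.exists_pow_nat_eq b (by positivity)

theorem ram (o : Ov l P) (h2 : l ≠ 2) {y : Qb} {k z : ℕ} (hy : y ^ 2 ^ n = (l ^ k * z : ℕ))
    (nd : ¬ l ∣ z) (h : ∀ i, Inert P i → i y = y) : 2 ^ n ∣ k := by
  rcases n with _ | n
  · simp
  obtain ⟨τ, hτ⟩ := P022E.GW.Tg.ex_gn' o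
  obtain ⟨β, hβ⟩ := ex_rt (n + 1) l
  have l0 : (l : Qb) ≠ 0 := Nat.cast_ne_zero.2 o.1.ne_zero
  have β0 : β ≠ 0 := fun e => l0 (by rw [← hβ, e, zero_pow (by positivity)])
  have e1 : (y / β ^ k) ^ 2 ^ (n + 1) = z := by
    rw [div_pow, ← pow_mul, mul_comm k, pow_mul, hβ, hy]
    push_cast
    field_simp
  have z0 : (z : Qb) ≠ 0 := Nat.cast_ne_zero.2 fun e => nd (e ▸ dvd_zero _)
  have y0 : y ≠ 0 := fun e => z0 (by rw [← e1, e, zero_div, zero_pow (by positivity)])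
  have e2 := unr_root o h2 e1 nd hτ.1
  rw [map_div₀, h τ hτ.1, div_eq_div_iff (by simp [β0]) (pow_ne_zero _ β0), map_pow] at e2
  have e3 : (τ β / β) ^ k = 1 := by
    rw [div_pow, ← mul_left_cancel₀ y0 e2, div_self (pow_ne_zero _ β0)]
  have e4 : (τ β / β) ^ 2 ^ n = -1 := by
    rw [div_pow, ← map_pow, hτ.2 _ (by rw [← pow_mul, ← pow_succ, hβ]), neg_div,
      div_self (pow_ne_zero _ β0)]
  rw [← orderOf_eq_prime_pow (x := τ β / β) (p := 2) (n := n) (by rw [e4]; norm_num)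
    (by rw [pow_succ, pow_mul, e4]; norm_num)]
  exact orderOf_dvd_of_pow_eq_one e3

theorem fix_nat (h2 : 2 ∈ S) (hg : Fz S n g) (z : ℕ) (z0 : z ≠ 0) (y : Qb) (hy : y ^ 2 ^ n = z)
    (u : Ur S y) : g y = y := by
  induction z using Nat.strong_induction_on generalizing y with
  | _ z ih =>
  by_cases z1 : z = 1
  · exact hg y (Or.inl (by rw [pow_succ, pow_mul, hy, z1]; simp))
  obtain ⟨l, hl, d⟩ := Nat.exists_prime_and_dvd z1
  obtain ⟨k, z', nd, rfl⟩ := Nat.exists_eq_pow_mul_and_not_dvd z0 l hl.ne_one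
  have k0 : k ≠ 0 := fun e => nd (by simpa [e] using d)
  have z'0 : z' ≠ 0 := right_ne_zero_of_mul z0
  have lt : z' < l ^ k * z' :=
    lt_mul_of_one_lt_left (Nat.pos_of_ne_zero z'0) (Nat.one_lt_pow k0 hl.one_lt)
  have l0 : (l : Qb) ≠ 0 := Nat.cast_ne_zero.2 hl.ne_zero
  obtain ⟨γ, γ0, e, a, b⟩ : ∃ γ : Qb, γ ≠ 0 ∧ γ ^ 2 ^ n = l ^ k ∧ g γ = γ ∧ Ur S γ := by
    by_cases m : l ∈ S
    · obtain ⟨β, hβ⟩ := ex_rt n l
      refine ⟨β ^ k, pow_ne_zero _ fun e => l0 (by rw [← hβ, e, zero_pow (by positivity)]),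
        by rw [← pow_mul, mul_comm, pow_mul, hβ], by rw [map_pow, hg β (Or.inr ⟨l, m, hβ⟩)],
        fun q hq P o i hi => ?_⟩
      rw [map_pow, unr_root o (fun e => hq (e ▸ h2)) hβ
        (fun c => hq ((Nat.prime_dvd_prime_iff_eq o.1 hl).1 c ▸ m)) hi]
    · obtain ⟨P, hP⟩ := P022.H916.exists_prime hl
      obtain ⟨j, rfl⟩ := ram (P := P) ⟨hl, hP⟩ (fun e => m (e ▸ h2)) hy nd (u l m P ⟨hl, hP⟩)
      exact ⟨l ^ j, pow_ne_zero _ l0, by rw [← pow_mul, mul_comm], by simp, fun _ _ _ _ _ _ => by simp⟩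
  have := ih z' lt z'0 (y / γ) (by rw [div_pow, e, hy]; push_cast; field_simp)
    fun q hq P o i hi => by rw [map_div₀, u q hq P o i hi, b q hq P o i hi]
  rwa [map_div₀, a, div_left_inj' γ0] at this

theorem fix_rat (h2 : 2 ∈ S) (hg : Fz S n g) {y : Qb} (y0 : y ≠ 0) {r : ℚ} (hy : y ^ 2 ^ n = r)
    (u : Ur S y) : g y = y := by
  obtain ⟨ω, ω1, hω⟩ : ∃ ω : Qb, ω ^ 2 ^ (n + 1) = 1 ∧ ω ^ 2 ^ n * r.num = r.num.natAbs := by
    rcases Int.natAbs_eq r.num with e | e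
    · exact ⟨1, one_pow _, by rw [one_pow, one_mul, ← Int.cast_natCast, ← e]⟩
    · obtain ⟨ω, h⟩ := ex_rt n (-1)
      exact ⟨ω, by rw [pow_succ, pow_mul, h]; norm_num, by
        rw [h, ← Int.cast_natCast, ← neg_eq_iff_eq_neg.2 e]; push_cast; ring⟩
  have ω0 : ω ≠ 0 := fun e => by simp [e] at ω1
  have d0 : (r.den : Qb) ≠ 0 := Nat.cast_ne_zero.2 r.den_nz
  have r0 : r.num ≠ 0 := Rat.num_ne_zero.2 fun e => pow_ne_zero _ y0 (by rw [hy, e, Rat.cast_zero])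
  obtain ⟨m, hm⟩ : ∃ m, 2 ^ n = m + 1 := Nat.exists_eq_succ_of_ne_zero (by positivity)
  have := fix_nat h2 hg (r.num.natAbs * r.den ^ m)
    (mul_ne_zero (Int.natAbs_ne_zero.2 r0) (pow_ne_zero _ r.den_nz)) (ω * y * r.den) (by
      rw [mul_pow, mul_pow, hy, Nat.cast_mul, ← hω, Rat.cast_def, hm, pow_succ (r.den : Qb)]
      push_cast
      field_simp) fun q hq P o i hi => by
      rw [map_mul, map_mul, u q hq P o i hi, map_natCast,
        unr_root o (fun e => hq (e ▸ h2)) (b := 1) (by rw [ω1, Nat.cast_one]) o.1.not_dvd_one hi]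
  rw [map_mul, map_mul, map_natCast, hg ω (Or.inl ω1)] at this
  exact mul_left_cancel₀ ω0 (mul_right_cancel₀ d0 this)

theorem lc_ex {ψ : GQ → K} (c : Continuous ψ) : IsLocallyConstant fun g => ex (ψ g) :=
  (IsLocallyConstant.iff_eventually_eq _).2 fun g =>
    ((O_open.preimage (c.sub (continuous_const (y := ψ g)))).eventually_mem
      (show ψ g - ψ g ∈ O by simp)).mono fun _ h => ex_eq.2 h

/-- **Kummer theory over `ℚ`** -/
theorem kum {ψ : GQ → K} (lc : IsLocallyConstant fun g => ex (ψ g)) (lev : ∀ g, 2 ^ n * ψ g ∈ O)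
    (coc : ∀ g h, ψ g + cy g * ψ h - ψ (g * h) ∈ O) :
    ∃ (y : Qb) (r : ℚ), y ≠ 0 ∧ y ^ 2 ^ n = r ∧ ∀ g, g y = ex (ψ g) * y := by
  have fm : ∀ g h, ex (ψ (g * h)) = ex (ψ g) * g (ex (ψ h)) := fun g h => by
    rw [ex_cy, ← ex_add]
    exact (ex_eq.2 (coc g h)).symm
  have f1 : ex (ψ 1) = 1 := by simpa [ex_ne] using fm 1 1
  let W : Subgroup GQ :=
    { carrier := {v | ex (ψ v) = 1}
      mul_mem' := fun {a b} ha hb => by
        change ex (ψ (a * b)) = 1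
        rw [fm, ha, hb, map_one, one_mul]
      one_mem' := f1
      inv_mem' := fun {a} ha => by
        have := fm a⁻¹ a
        rwa [inv_mul_cancel, f1, ha, map_one, mul_one, eq_comm] at this }
  obtain ⟨b, hb⟩ := P022K.GW.Has.h90 (Δ := ⊤) isClosed_univ (c := fun g => Units.mk0 _ (ex_ne (ψ g)))
    (fun g _ h _ => Units.ext (fm g h)) (W := W) (lc {1}) fun w _ h => Units.ext h
  have e : ∀ g : GQ, g (b : Qb)⁻¹ = ex (ψ g) * (b : Qb)⁻¹ := fun g => by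
    have : ex (ψ g) * g (b : Qb) = b := congrArg Units.val (hb g trivial)
    rw [map_inv₀, eq_mul_inv_iff_mul_eq₀ b.ne_zero, inv_mul_eq_iff_eq_mul₀ (by simp), mul_comm, this]
  obtain ⟨r, hr⟩ := P004M.TE.mem_KQ.2 (show ∀ g : GQ, g ((b : Qb)⁻¹ ^ 2 ^ n) = _ from fun g => by
    rw [map_pow, e, mul_pow, ex_root.2 (lev g), one_mul])
  exact ⟨_, r, inv_ne_zero b.ne_zero, hr.symm, e⟩

/-- a cocycle which is unramified outside `S` vanishes on the elements which fix the roots of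
the `S`-units -/
theorem uniq (h2 : 2 ∈ S) {ψ : GQ → K} (lc : IsLocallyConstant fun g => ex (ψ g))
    (lev : ∀ g, 2 ^ n * ψ g ∈ O) (coc : ∀ g h, ψ g + cy g * ψ h - ψ (g * h) ∈ O)
    (unr : ∀ l ∉ S, ∀ P, Ov l P → ∀ i, Inert P i → ψ i ∈ O) (hg : Fz S n g) : ψ g ∈ O := by
  obtain ⟨y, r, y0, hy, e⟩ := kum lc lev coc
  have := fix_rat h2 hg y0 hy fun l hl P o i hi => by rw [e, ex_one.2 (unr l hl P o i hi), one_mul]
  rwa [e, mul_eq_right₀ y0, ex_one] at this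

end Vale.Agent.P014T.Nd
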