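import Vale.Agent.P004S.St

/-!
# P014T, row T4: the algebra of the non degeneracy of the tame height
-/

set_option linter.all false

noncomputable section

namespace Vale.Agent.P014T.Nd

open Matrix Polynomial
open Vale.Agent.P004S (wp)

variable {L : Type} [Field L]

theorem sol {z t : L} (z0 : z ≠ 0) (ht : t = z + z⁻¹) (h2 : z ^ 2 ≠ 1) (f : ℕ → L)
    (hf : ∀ i, f (i + 2) = t * f (i + 1) - f i) : ∃ A B : L, ∀ i, f i = A * z ^ i + B * z⁻¹ ^ i := by
  have d : z ^ 2 - 1 ≠ 0 := sub_ne_zero.2 h2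
  refine ⟨(z * f 1 - f 0) / (z ^ 2 - 1), (z ^ 2 * f 0 - z * f 1) / (z ^ 2 - 1), fun i => ?_⟩
  induction i using Nat.twoStepInduction with
  | zero => field_simp; ring
  | one => field_simp; ring
  | more i a b =>
    rw [hf, a, b, ht]
    generalize (z * f 1 - f 0) / (z ^ 2 - 1) = A
    generalize (z ^ 2 * f 0 - z * f 1) / (z ^ 2 - 1) = B
    have e : z * z⁻¹ = 1 := mul_inv_cancel₀ z0
    simp only [pow_succ]
    linear_combination (A * z ^ i + B * z⁻¹ ^ i) * e

theorem seq' [CharZero L] [IsAlgClosed L] {t y : L} (T f f' : ℕ → L) (T0 : T 0 = 2) (T1 : T 1 = t)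
    (hT : ∀ i, T (i + 2) = t * T (i + 1) - T i) (ne : ∀ k, 0 < k → T k ≠ 2)
    (hf : ∀ i, f (i + 2) = t * f (i + 1) - f i) (hf' : ∀ i, f' (i + 2) = t * f' (i + 1) - f' i)
    (h : ∀ i, (2 - f i) * (y - f' i) = 0) : y = 0 := by
  obtain ⟨s, hs⟩ := IsAlgClosed.exists_pow_nat_eq (t ^ 2 - 4) two_pos
  obtain ⟨z, hz⟩ : ∃ z : L, z * (t - z) = 1 := ⟨(t + s) / 2, by linear_combination (-1 / 4) * hs⟩
  have z0 : z ≠ 0 := left_ne_zero_of_mul_eq_one hz
  have ht : t = z + z⁻¹ := by rw [← eq_inv_of_mul_eq_one_right hz]; ring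
  have e : z * z⁻¹ = 1 := mul_inv_cancel₀ z0
  have hT' : ∀ i, T i = z ^ i + z⁻¹ ^ i := fun i => by
    induction i using Nat.twoStepInduction with
    | zero => rw [T0]; norm_num
    | one => rw [T1, ht]; simp
    | more i a b =>
      rw [hT, a, b, ht]
      simp only [pow_succ]
      linear_combination (z ^ i + z⁻¹ ^ i) * e
  have zk : ∀ k, 0 < k → z ^ k ≠ 1 := fun k hk c => ne k hk (by
    rw [hT', inv_pow, c]; norm_num)
  have inj : Function.Injective fun i : ℕ => z ^ i := fun i j c => by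
    have key : ∀ i j : ℕ, i < j → z ^ i ≠ z ^ j := fun i j l c => by
      obtain ⟨k, rfl⟩ := Nat.exists_eq_add_of_lt l
      rw [add_assoc, pow_add] at c
      exact zk (k + 1) k.succ_pos (mul_left_cancel₀ (pow_ne_zero i z0) (by rw [← c, mul_one]))
    rcases lt_trichotomy i j with l | l | l
    · exact absurd c (key i j l)
    · exact l
    · exact absurd c.symm (key j i l)
  obtain ⟨A, B, e1⟩ := sol z0 ht (zk 2 two_pos) f hf
  obtain ⟨A', B', e2⟩ := sol z0 ht (zk 2 two_pos) f' hf'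
  have p0 : (C 2 * X - C A * X ^ 2 - C B) * (C y * X - C A' * X ^ 2 - C B') = (0 : L[X]) := by
    refine eq_zero_of_infinite_isRoot _ ((Set.infinite_range_of_injective inj).mono ?_)
    rintro _ ⟨i, rfl⟩
    have a := h i
    rw [e1, e2, inv_pow] at a
    have x0 : z ^ i ≠ 0 := pow_ne_zero i z0
    simp only [Set.mem_setOf_eq, IsRoot.def, eval_mul, eval_sub, eval_C, eval_X, eval_pow]
    generalize z ^ i = x at a x0
    have : (2 * x - A * x ^ 2 - B) * (y * x - A' * x ^ 2 - B') =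
        x ^ 2 * ((2 - (A * x + B * x⁻¹)) * (y - (A' * x + B' * x⁻¹))) := by
      field_simp; ring
    rw [this, a, mul_zero]
  rcases mul_eq_zero.1 p0 with p | p
  · simpa [coeff_C, coeff_X_pow] using congrArg (coeff · 1) p
  · simpa [coeff_C, coeff_X_pow] using congrArg (coeff · 1) p

theorem seq [CharZero L] {t y : L} (T f f' : ℕ → L) (T0 : T 0 = 2) (T1 : T 1 = t)
    (hT : ∀ i, T (i + 2) = t * T (i + 1) - T i) (ne : ∀ k, 0 < k → T k ≠ 2)
    (hf : ∀ i, f (i + 2) = t * f (i + 1) - f i) (hf' : ∀ i, f' (i + 2) = t * f' (i + 1) - f' i)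
    (h : ∀ i, (2 - f i) * (y - f' i) = 0) : y = 0 := by
  let φ := algebraMap L (AlgebraicClosure L)
  refine φ.injective (Eq.trans ?_ (map_zero φ).symm)
  refine seq' (t := φ t) (fun i => φ (T i)) (fun i => φ (f i)) (fun i => φ (f' i))
    (by simp only [T0, map_ofNat]) (by simp only [T1]) (fun i => by simp only [hT, map_sub, map_mul])
    (fun k hk c => ne k hk (φ.injective (by simpa only [map_ofNat] using c)))
    (fun i => by simp only [hf, map_sub, map_mul]) (fun i => by simp only [hf', map_sub, map_mul])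
    fun i => ?_
  simpa only [map_mul, map_sub, map_ofNat, map_zero] using congrArg φ (h i)

abbrev Mx (L : Type) := Matrix (Fin 2) (Fin 2) L

theorem cay {R : Type} [CommRing R] (X : Mx R) : X * X = X.trace • X - X.det • 1 := by
  ext i j
  fin_cases i <;> fin_cases j <;> simp [mul_apply, Fin.sum_univ_two, trace_fin_two, det_fin_two] <;>
    ring

theorem wp_mul {R : Type} [CommRing R] (X : Mx R) (x y : Fin 2 → R) :
    wp (X *ᵥ x) (X *ᵥ y) = X.det * wp x y := by
  simp only [wp, mulVec, dotProduct, Fin.sum_univ_two, det_fin_two]; ring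

theorem line {x y : Fin 2 → L} (x0 : x ≠ 0) (h : wp x y = 0) : ∃ s : L, y = s • x := by
  simp only [wp] at h
  by_cases h0 : x 0 = 0
  · have h1 : x 1 ≠ 0 := fun k => x0 (funext fun i => by fin_cases i <;> assumption)
    refine ⟨y 1 / x 1, funext fun i => ?_⟩
    fin_cases i <;> simp <;> field_simp
    linear_combination -h
  · refine ⟨y 0 / x 0, funext fun i => ?_⟩
    fin_cases i <;> simp <;> field_simp
    linear_combination h

theorem wp_smul (x : Fin 2 → L) (s t : L) : wp (s • x) (t • x) = 0 := by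
  simp only [wp, Pi.smul_apply, smul_eq_mul]; ring

theorem fix0 {D : Mx L} (hd : D.det = 1) (ht : D.trace ≠ 2) {y : Fin 2 → L} (h : D *ᵥ y = y) :
    y = 0 := by
  by_contra c
  have := exists_mulVec_eq_zero_iff.1 ⟨y, c, show (D - 1) *ᵥ y = 0 by
    rw [sub_mulVec, one_mulVec, h, sub_self]⟩
  simp only [det_fin_two, trace_fin_two, Matrix.sub_apply, one_apply_eq, one_apply_ne, ne_eq,
    zero_ne_one, one_ne_zero, not_false_eq_true] at this hd ht
  exact ht (by linear_combination hd - this)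

variable {G : Type} [Group G]

/-- the number which measures the size of the Jordan block of `g` -/
def hh (ρ : G →* Mx L) (a : G → Fin 2 → L) (κ : L) (c : G → L) (g : G) : L :=
  (2 - (ρ g).trace) * c g - κ * wp (a g) (ρ g *ᵥ a g)

theorem core0 [CharZero L] (ρ : G →* Mx L) (H : Subgroup G) [hn : H.Normal]
    (irr : ∀ w, w ≠ 0 → ∃ x, ∀ s : L, ρ x *ᵥ w ≠ s • w) (hd : ∀ g ∈ H, (ρ g).det = 1) {u : G}
    (hu : u ∈ H) (ht : ∀ k, 0 < k → (ρ (u ^ k)).trace ≠ 2) (a : G → Fin 2 → L)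
    (ha : ∀ g h, a (g * h) = a g + ρ g *ᵥ a h) (a0 : a u = 0) {κ : L} (hκ : κ ≠ 0) (c : G → L)
    (hc : ∀ g ∈ H, ∀ h ∈ H, c g + c h - c (g * h) = κ * wp (a g) (ρ g *ᵥ a h))
    (no : ∀ g ∈ H, (ρ g).trace ≠ 2 → hh ρ a κ c g = 0) (g : G) : a g = 0 := by
  have t1 : (ρ u).trace ≠ 2 := by simpa using ht 1 one_pos
  have cu : c u = 0 := by
    have := no u hu t1
    simp only [hh, a0, wp, Pi.zero_apply, zero_mul, sub_self, mul_zero, sub_zero] at this
    exact (mul_eq_zero.1 this).resolve_left (sub_ne_zero.2 t1.symm)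
  have e1 : ∀ (τ : G) (i : ℕ), a (u ^ i * τ) = ρ u ^ i *ᵥ a τ := fun τ i => by
    induction i with
    | zero => simp
    | succ i ih => rw [pow_succ', mul_assoc, ha, a0, ih, zero_add, mulVec_mulVec, pow_succ']
  have e2 : ∀ τ ∈ H, ∀ i : ℕ, c (u ^ i * τ) = c τ := fun τ hτ i => by
    induction i with
    | zero => simp
    | succ i ih =>
      have := hc u hu _ (mul_mem (pow_mem hu i) hτ)
      simp only [a0, wp, Pi.zero_apply, zero_mul, sub_self, mul_zero, cu, ih] at this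
      rw [pow_succ', mul_assoc]
      linear_combination -this
  have rc : ∀ i : ℕ, ρ u ^ (i + 2) = (ρ u).trace • ρ u ^ (i + 1) - ρ u ^ i := fun i => by
    rw [pow_add, pow_two, cay, hd u hu, one_smul, mul_sub, mul_one, mul_smul_comm, ← pow_succ]
  have c0 : ∀ τ ∈ H, c τ = 0 := fun τ hτ => by
    have := seq (t := (ρ u).trace) (y := 2 * c τ) (fun i => (ρ u ^ i).trace)
      (fun i => (ρ u ^ i * ρ τ).trace)
      (fun i => (ρ u ^ i * ρ τ).trace * c τ + κ * wp (a τ) (ρ τ *ᵥ (ρ u ^ i *ᵥ a τ)))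
      (by simp) (by simp) (fun i => by simp only [rc, trace_sub, trace_smul, smul_eq_mul])
      (fun k hk => by simpa only [map_pow] using ht k hk)
      (fun i => by simp only [rc, sub_mul, smul_mul_assoc, trace_sub, trace_smul, smul_eq_mul])
      (fun i => by
        simp only [rc, sub_mul, smul_mul_assoc, trace_sub, trace_smul, smul_eq_mul, sub_mulVec,
          smul_mulVec, mulVec_sub, mulVec_smul, wp, Pi.sub_apply, Pi.smul_apply]
        ring) fun i => by
      by_cases k : (ρ u ^ i * ρ τ).trace = 2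
      · rw [k, sub_self, zero_mul]
      · have := no _ (mul_mem (pow_mem hu i) hτ) (by rwa [map_mul, map_pow])
        rw [hh, e1, e2 τ hτ, map_mul, map_pow, ← mulVec_mulVec, wp_mul, det_pow, hd u hu, one_pow,
          one_mul] at this
        exact mul_eq_zero_of_right _ (by linear_combination this)
    linear_combination (1 / 2) * this
  have w0 : ∀ σ ∈ H, ∀ τ ∈ H, wp (a σ) (a τ) = 0 := fun σ hσ τ hτ => by
    have h1 := mul_mem (inv_mem hσ) hτ
    have := hc σ hσ _ h1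
    have e := ha σ (σ⁻¹ * τ)
    rw [mul_inv_cancel_left] at e this
    rw [c0 _ hσ, c0 _ h1, c0 _ hτ, eq_sub_of_add_eq' e.symm] at this
    refine mul_left_cancel₀ hκ ?_
    simp only [wp, Pi.sub_apply] at this ⊢
    linear_combination -this
  have cj : ∀ g τ : G, ρ g *ᵥ a (g⁻¹ * τ * g) = a τ + (ρ τ *ᵥ a g - a g) := fun g τ => by
    have e := ha g (g⁻¹ * τ * g)
    rw [← mul_assoc, mul_inv_cancel_left, ha] at e
    rw [← add_sub_assoc, e, add_sub_cancel_left]
  have cm : ∀ g, ∀ τ ∈ H, g⁻¹ * τ * g ∈ H := fun g τ hτ => by simpa using hn.conj_mem τ hτ g⁻¹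
  have aH : ∀ τ ∈ H, a τ = 0 := fun τ hτ => by
    by_contra x0
    obtain ⟨g, hg⟩ := irr _ x0
    have ln : ∀ σ ∈ H, ∃ s : L, a σ = s • a τ := fun σ hσ => line x0 (w0 τ hτ σ hσ)
    have st : ∀ σ ∈ H, ∃ s : L, ρ σ *ᵥ (ρ g *ᵥ a τ) = s • (ρ g *ᵥ a τ) := fun σ hσ => by
      obtain ⟨s1, p1⟩ := ln _ (cm g σ hσ)
      obtain ⟨s2, p2⟩ := ln _ (mul_mem (cm g σ hσ) hτ)
      rw [ha, p1] at p2
      refine ⟨s2 - s1, ?_⟩
      rw [← mulVec_smul, sub_smul, ← p2, add_sub_cancel_left, mulVec_mulVec, mulVec_mulVec,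
        ← map_mul, ← map_mul, ← mul_assoc, mul_inv_cancel_left]
    have y0 : ρ g *ᵥ a τ ≠ 0 := fun e => hg 0 (by rw [e, zero_smul])
    obtain ⟨μ, hμ⟩ := st u hu
    have μ1 : μ - 1 ≠ 0 := fun e => y0 (fix0 (hd u hu) t1 (by rw [hμ, sub_eq_zero.1 e, one_smul]))
    obtain ⟨s1, p1⟩ := ln _ (cm g u hu)
    have q1 := cj g u
    rw [p1, a0, zero_add, mulVec_smul] at q1
    have ag : a g = (s1 / (μ - 1)) • (ρ g *ᵥ a τ) := by
      refine sub_eq_zero.1 (fix0 (hd u hu) t1 ?_)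
      rw [mulVec_sub, mulVec_smul, hμ, eq_add_of_sub_eq q1.symm, smul_smul,
        show s1 / (μ - 1) * μ = s1 + s1 / (μ - 1) by field_simp; ring, add_smul]
      abel
    obtain ⟨s2, p2⟩ := ln _ (cm g τ hτ)
    obtain ⟨ν, hν⟩ := st τ hτ
    have q2 := cj g τ
    rw [p2, ag, mulVec_smul, mulVec_smul, hν] at q2
    generalize ρ g *ᵥ a τ = y at q2 hg y0
    obtain ⟨s, hs⟩ := line x0 (y := y) (by
      rw [eq_sub_of_add_eq q2.symm]
      simp only [wp, Pi.sub_apply, Pi.smul_apply, smul_eq_mul]; ring)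
    exact hg s hs
  have q := cj g u
  rw [aH _ (cm g u hu), a0, zero_add, mulVec_zero] at q
  exact fix0 (hd u hu) t1 (sub_eq_zero.1 q.symm)

/-- **the core of T4** -/
theorem core [CharZero L] (ρ : G →* Mx L) (H : Subgroup G) [H.Normal]
    (irr : ∀ w, w ≠ 0 → ∃ x, ∀ s : L, ρ x *ᵥ w ≠ s • w) (hd : ∀ g ∈ H, (ρ g).det = 1) {u : G}
    (hu : u ∈ H) (ht : ∀ k, 0 < k → (ρ (u ^ k)).trace ≠ 2) (a : G → Fin 2 → L)
    (ha : ∀ g h, a (g * h) = a g + ρ g *ᵥ a h) (na : ¬ ∃ v, ∀ g, a g = ρ g *ᵥ v - v) {κ : L}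
    (hκ : κ ≠ 0) (c : G → L)
    (hc : ∀ g ∈ H, ∀ h ∈ H, c g + c h - c (g * h) = κ * wp (a g) (ρ g *ᵥ a h)) :
    ∃ g ∈ H, (ρ g).trace ≠ 2 ∧ hh ρ a κ c g ≠ 0 := by
  by_contra no
  push Not at no
  have t1 : (ρ u).trace ≠ 2 := by simpa using ht 1 one_pos
  have inj : Function.Injective (toLin' (1 - ρ u)) := (injective_iff_map_eq_zero _).2 fun y hy => by
    rw [toLin'_apply, sub_mulVec, one_mulVec, sub_eq_zero] at hy
    exact fix0 (hd u hu) t1 hy.symm
  obtain ⟨v, hv⟩ := LinearMap.injective_iff_surjective.1 inj (a u)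
  rw [toLin'_apply, sub_mulVec, one_mulVec] at hv
  refine na ⟨-v, fun g => ?_⟩
  have := core0 ρ H irr hd hu ht (fun g => a g + (ρ g *ᵥ v - v)) (fun g h => by
      simp only [ha, map_mul, mulVec_add, mulVec_sub, mulVec_mulVec]; abel)
    (by simp only [← hv]; abel) hκ
    (fun g => c g - κ * wp (a g) (ρ g *ᵥ v) + κ * wp v (a g + (ρ g *ᵥ v - v)))
    (fun g hg h hh => ?_) (fun g hg ht => ?_) g
  · rw [mulVec_neg, eq_neg_of_add_eq_zero_left this]; abel
  · have e := hc g hg h hh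
    have e1 := wp_mul (ρ g) (a h) (ρ h *ᵥ v)
    have e2 := wp_mul (ρ g) v (a h + (ρ h *ᵥ v - v))
    rw [hd g hg, one_mul] at e1 e2
    simp only [ha, map_mul, ← mulVec_mulVec, mulVec_add, mulVec_sub, wp, Pi.add_apply,
      Pi.sub_apply] at e e1 e2 ⊢
    linear_combination e + κ * e1 - κ * e2
  · have e := no g hg ht
    have d := hd g hg
    simp only [hh, wp, mulVec, dotProduct, Fin.sum_univ_two, det_fin_two, trace_fin_two,
      Pi.add_apply, Pi.sub_apply] at e d ⊢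
    linear_combination e - κ * (2 * (v 0 * a g 1 - v 1 * a g 0) +
      (v 0 * (ρ g 1 0 * v 0 + ρ g 1 1 * v 1) - v 1 * (ρ g 0 0 * v 0 + ρ g 0 1 * v 1))) * d

end Vale.Agent.P014T.Nd
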