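import Vale.Agent.P014T.Nd.Par
import Vale.Agent.P014T.Ht.Iso

/-! # P014T: the tame height under isogenies -/

set_option linter.all false

open scoped Classical

noncomputable section

namespace Vale.Agent.P014T.Nd

open NumberField Real
open Vale.Agent.P004H.H666 Vale.Agent.P004Z.H
open Vale.Agent.P022 (Qb GQ)
open Vale.Agent.P022E.GW (Ov)
open Vale.Agent.P004K (K1)
open Vale.Agent.P004M.TE hiding Qb GQ Fb
open Bx P027M.K

variable {A B A' B' D : ℤ} {l : ℕ} {L : Ideal (𝓞 Qb)} {M : Type} [AddCommGroup M]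
  {lam : ZMod l → M} {v : AbsoluteValue Qb ℝ}

theorem k1_iff (a : Av L v) (o : Ov l L) {y : Pt A B} : K1 L y ↔ y = 0 ∨ 1 < v (xp y) := by
  refine ⟨fun k => (em (y = 0)).imp_right fun e => ?_, fun k x z h e => ?_⟩
  · simpa [zp_one e] using a.k1 o k
  · subst e
    exact fun i => k.elim (WeierstrassCurve.Affine.Point.some_ne_zero _)
      ((a.ip o x).1 i).not_gt

theorem la_eq (P : Pt A B) : lv v (um (nn v P)) = log (max 1 (v (xp P))) := by
  rw [lv_um (nn_ne P), nn]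
  split_ifs with h
  · rw [max_eq_right h.le]
  · rw [max_eq_left (not_lt.1 h), map_one]

theorem mx_eq (hv : IsNonarchimedean v) {a b : Qb} (h : v (a - b) ≤ 1) :
    max 1 (v a) = max 1 (v b) := by
  have k : ∀ {a b : Qb}, v (a - b) ≤ 1 → max 1 (v a) ≤ max 1 (v b) := fun {a b} h =>
    max_le (le_max_left _ _) (by simpa using (hv (a - b) b).trans (max_le_max_right _ h))
  exact (k h).antisymm (k (by rwa [v.map_sub]))

theorem sum_le (hv : IsNonarchimedean v) {ι : Type} (s : Finset ι) {f : ι → Qb}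
    (h : ∀ i ∈ s, v (f i) ≤ 1) : v (∑ i ∈ s, f i) ≤ 1 :=
  Finset.sum_induction f (fun x => v x ≤ 1) (fun _ _ => add_le hv) (by simp) h

theorem mul_near (hv : IsNonarchimedean v) (x y : Qb) (a : v (x - 1) < 1) (b : v (y - 1) < 1) :
    v (x * y - 1) < 1 := by
  rw [show x * y - 1 = x * (y - 1) + (x - 1) by ring]
  exact add_lt hv (mul_lt (one_of hv a).le b) a

theorem ex_den (s : Finset Qb) : ∃ n : ℤ, n ≠ 0 ∧ ∀ x ∈ s, IsIntegral ℤ ((n : Qb) * x) := by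
  have : Algebra.IsAlgebraic ℤ Qb := ⟨fun x =>
    (IsFractionRing.isAlgebraic_iff ℤ ℚ Qb).2 ((AlgebraicClosure.isAlgebraic ℚ).1 x)⟩
  simpa only [zsmul_eq_mul] using Algebra.IsAlgebraic.exists_integral_multiples (R := ℤ) s

/-- the product formula -/
theorem Lb.fin (h : Lb A B l lam) (o : Ov l L) (a : Av L v) {c : ℚ} (c0 : c ≠ 0)
    (u : ∀ q V w, Ov q V → Av V w → ¬ (q : ℤ) ∣ 2 * (4 * A ^ 3 + 27 * B ^ 2) → w c = 1) {x y : ℤ}
    (hx : ¬ (l : ℤ) ∣ x) (hy : ¬ (l : ℤ) ∣ y) (e : v (c * x / y - 1) < 1) : lam x = lam y := by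
  have un : ∀ q : ℕ, q.Prime → (q : ℤ) ∣ c.num ∨ (q : ℤ) ∣ c.den →
      (q : ℤ) ∣ 2 * (4 * A ^ 3 + 27 * B ^ 2) := fun q m k => by_contra fun hl => by
    have := Fact.mk m
    have o : Ov q _ := ⟨m, P022D.Loc2.PP_prime q, P022D.Loc2.p_mem_PP q⟩
    obtain ⟨w, a⟩ := ex_av o
    have e1 := u q _ w o a hl
    rw [Rat.cast_def, map_div₀, div_eq_one_iff_eq (w.ne_zero (den_ne c))] at e1
    have e2 := (a.num_den o c).elim (fun j => And.intro j (e1 ▸ j)) fun j => ⟨e1.trans j, j⟩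
    exact k.elim ((a.int o _).1 e2.1) ((a.int o _).1 (by simpa using e2.2))
  obtain ⟨n0, n1⟩ := h.int o.1 (a := c.num) (Rat.num_ne_zero.2 c0) fun q m k => un q m (Or.inl k)
  obtain ⟨d0, d1⟩ := h.int o.1 (a := c.den) (Int.natCast_ne_zero.2 c.den_nz)
    fun q m k => un q m (Or.inr k)
  have e3 : (l : ℤ) ∣ c.num * x - c.den * y := by_contra fun k =>
    (mul_lt (x := ((c.den * y : ℤ) : Qb)) a.na.apply_intCast_le_one e).ne (by
      rw [← (a.int o _).2 k]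
      refine congrArg v ?_
      have : (y : Qb) ≠ 0 := Int.cast_ne_zero.2 fun e => hy (e ▸ dvd_zero _)
      have := den_ne c
      rw [Rat.cast_def]
      push_cast
      field_simp)
  have := Fact.mk o.1
  rw [← ZMod.intCast_zmod_eq_zero_iff_dvd, Int.cast_sub, sub_eq_zero] at e3
  have e4 := congrArg lam e3
  rwa [Int.cast_mul, Int.cast_mul, h.mul _ _ n0 (mt (ZMod.intCast_zmod_eq_zero_iff_dvd _ _).1 hx),
    h.mul _ _ d0 (mt (ZMod.intCast_zmod_eq_zero_iff_dvd _ _).1 hy), n1, d1, zero_add,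
    zero_add] at e4

theorem Lb.pow (h : Lb A B l lam) (hl : l.Prime) {x : ZMod l} (x0 : x ≠ 0) (n : ℕ) :
    lam (x ^ n) = n • lam x := by
  have := Fact.mk hl
  induction n with
  | zero => simpa using h.one hl
  | succ n ih => rw [pow_succ, h.mul _ _ (pow_ne_zero n x0) x0, ih, succ_nsmul]

/-- the formula of Vélu -/
structure Vl (φ : Pt A' B' →+ Pt A B) (s : Finset (Pt A' B')) (w : ℚ) (κ : Qb) : Prop where
  hD : 4 * A' ^ 3 + 27 * B' ^ 2 ≠ 0
  w0 : w ≠ 0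
  gal : ∀ g y, φ (ga g y) = ga g (φ y)
  mem : ∀ t, t ∈ s ↔ φ t = 0
  eq : ∀ y, φ y ≠ 0 → w * xp (φ y) = ∑ t ∈ s, xp (y - t) + κ

namespace Vl

variable {φ : Pt A' B' →+ Pt A B} {s : Finset (Pt A' B')} {w : ℚ} {κ : Qb} (h : Vl φ s w κ)
  (a : Av L v) (o : Ov l L) (hκ : v κ ≤ 1) (hs : ∀ t ∈ s, v (xp t) ≤ 1)
include h a o hκ hs

omit hκ in
theorem uni {y t t' : Pt A' B'} (m : t ∈ s) (m' : t' ∈ s) (k : K1 L (y - t))
    (e : t' ≠ t) : v (xp (y - t')) ≤ 1 := not_lt.1 fun j => by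
  have := (K1s h.hD o).sub_mem k ((k1_iff a o).2 (Or.inr j))
  rw [sub_sub_sub_cancel_left] at this
  exact ((k1_iff a o).1 this).elim (sub_ne_zero.2 e) (hs _ ((h.mem _).2 (by
    rw [map_sub, (h.mem _).1 m, (h.mem _).1 m', sub_self]))).not_gt

omit o hs in
theorem near {y t : Pt A' B'} (n : φ y ≠ 0) (m : t ∈ s)
    (e : ∀ t' ∈ s, t' ≠ t → v (xp (y - t')) ≤ 1) : v (w * xp (φ y) - xp (y - t)) ≤ 1 := by
  rw [h.eq y n, ← Finset.add_sum_erase _ _ m, add_assoc, add_sub_cancel_left]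
  exact add_le a.na (sum_le a.na _ fun t' j =>
    e t' (Finset.mem_of_mem_erase j) (Finset.ne_of_mem_erase j)) hκ

theorem loc (hw : v w = 1) {y : Pt A' B'} (n : φ y ≠ 0) :
    lv v (um (nn v (φ y))) = ∑ t ∈ s, lv v (um (nn v (y - t))) := by
  obtain ⟨t, m, e⟩ : ∃ t ∈ s, ∀ t' ∈ s, t' ≠ t → v (xp (y - t')) ≤ 1 := by
    by_cases c : ∃ t ∈ s, 1 < v (xp (y - t))
    · obtain ⟨t, m, c⟩ := c
      exact ⟨t, m, fun t' m' => h.uni a o hs m m' ((k1_iff a o).2 (Or.inr c))⟩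
    · exact ⟨0, (h.mem 0).2 (map_zero φ), fun t m _ => not_lt.1 fun j => c ⟨t, m, j⟩⟩
  rw [Finset.sum_eq_single_of_mem t m fun t' m' j => by
    rw [la_eq, max_eq_left (e t' m' j), log_one], la_eq, la_eq,
    ← mx_eq a.na (h.near a hκ n m e), map_mul, hw, one_mul]

end Vl

theorem Vl.main {φ : Pt A' B' →+ Pt A B} {s : Finset (Pt A' B')} {w : ℚ} {κ : Qb}
    (h : Vl φ s w κ) : ∃ D : ℤ, D ≠ 0 ∧ ∀ (M : Type) [AddCommGroup M] (l : ℕ) L
      (lam : ZMod l → M) y, Ov l L → Lb 0 D l lam → (∀ g, ga g y = y) → K1 L y → K1 L (φ y) ∧ lam (nu (φ y)) = s.card • lam (nu y) := by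
  obtain ⟨N, N0, hN⟩ := ex_den (insert κ (insert (w : Qb) (insert (w⁻¹ : Qb) (s.image xp))))
  refine ⟨N * (2 * (4 * A' ^ 3 + 27 * B' ^ 2)), mul_ne_zero N0 (mul_ne_zero two_ne_zero h.hD),
    fun M _ l L lam y o lb hy ky => ?_⟩
  have w0 : (w : Qb) ≠ 0 := Rat.cast_ne_zero.2 h.w0
  have gd : ∀ q V v, Ov q V → Av V v →
      ¬ (q : ℤ) ∣ 2 * (4 * 0 ^ 3 + 27 * (N * (2 * (4 * A' ^ 3 + 27 * B' ^ 2))) ^ 2) →
      v κ ≤ 1 ∧ v w = 1 ∧ (∀ t ∈ s, v (xp t) ≤ 1) ∧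
        v (16 * (4 * algebraMap ℚ Qb A' ^ 3 + 27 * algebraMap ℚ Qb B' ^ 2)) = 1 := by
    intro q V v o a k
    have i : ∀ x : Qb, IsIntegral ℤ ((N : Qb) * x) → v x ≤ 1 := fun x e => by
      have := a.le ⟨_, e⟩
      change v (N * x) ≤ 1 at this
      rwa [map_mul, (a.int o N).2 fun j => k (j.trans ⟨54 * N *
        (2 * (4 * A' ^ 3 + 27 * B' ^ 2)) ^ 2, by ring⟩), one_mul] at this
    refine ⟨i _ (hN κ (by simp)), le_antisymm (i _ (hN w (by simp))) ?_,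
      fun t m => i _ (hN (xp t) (by simp [Finset.mem_image_of_mem xp m])), ?_⟩
    · have := i _ (hN (w⁻¹ : Qb) (by simp))
      rwa [map_inv₀, inv_le_one₀ (v.pos w0)] at this
    · have hp := Nat.prime_iff_prime_int.1 o.1
      have := (a.int o ((2 * (4 * A' ^ 3 + 27 * B' ^ 2)) * 2 ^ 3)).2 fun j =>
        k (((hp.dvd_or_dvd j).elim id fun j => (hp.dvd_of_dvd_pow j).mul_right _).trans
          ⟨54 * N ^ 2 * (2 * (4 * A' ^ 3 + 27 * B' ^ 2)), by ring⟩)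
      rw [← this, map_intCast, map_intCast]
      exact congrArg v (by push_cast; ring)
  obtain ⟨v, a⟩ := ex_av o
  obtain ⟨g1, g2, g3, -⟩ := gd l L v o a lb.gd
  have n1 : ∀ {A B : ℤ}, nu (0 : Pt A B) = 1 := by
    intro A B
    rw [nu, rx_of (r := 1) (by rw [xp_zero, Rat.cast_one])]
    rfl
  by_cases y0 : y = 0
  · rw [y0, map_zero, n1, n1, Int.cast_one, lb.one o.1, smul_zero]
    exact ⟨(k1_iff a o).2 (Or.inl rfl), rfl⟩
  have b : 1 < v (xp y) := ((k1_iff a o).1 ky).resolve_left y0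
  have n : φ y ≠ 0 := fun e => (g3 y ((h.mem y).2 e)).not_gt b
  have z : 0 ∈ s := (h.mem 0).2 (map_zero φ)
  have p := one_pos.trans b
  have x0 := v.pos_iff.1 p
  have e1 : v (w * xp (φ y) / xp y - 1) < 1 := by
    have := h.near a g1 n z fun t m e => h.uni a o g3 z m (by rwa [sub_zero]) e
    rw [div_sub_one x0, map_div₀, div_lt_one p]
    exact (sub_zero y ▸ this).trans_lt b
  have kφ : K1 L (φ y) := (k1_iff a o).2 (Or.inr (by
    have := one_of a.na e1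
    rw [map_div₀, map_mul, g2, one_mul, div_eq_one_iff_eq p.ne'] at this
    rwa [this]))
  have hφ : ∀ g, ga g (φ y) = φ y := fun g => by rw [← h.gal, hy]
  have me : ∀ {t}, t ∈ s.erase 0 ↔ t ≠ 0 ∧ φ t = 0 := by simp [h.mem]
  have ne : ∀ t ∈ s.erase 0, xp y - xp t ≠ 0 := fun t m =>
    sub_ne_zero.2 fun e => (g3 t (Finset.mem_of_mem_erase m)).not_gt (e ▸ b)
  have mp : ∀ g, ∀ t ∈ s.erase 0, ga g t ∈ s.erase 0 := fun g t m => me.2
    ⟨fun e => (me.1 m).1 (pa_inj _ (e.trans (map_zero _).symm)),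
      by rw [h.gal, (me.1 m).2, map_zero]⟩
  have iv : ∀ (g : GQ) (t : Pt A' B'), ga g⁻¹ (ga g t) = t := fun g t => by
    rw [← ga_mul, inv_mul_cancel, Ig.Hm.ga1]
  obtain ⟨r, hr⟩ : ∃ r : ℚ, algebraMap ℚ Qb r = ∏ t ∈ s.erase 0, (xp y - xp t) :=
    mem_KQ.2 fun g => by
      rw [map_prod]
      exact Finset.prod_nbij' (ga g) (ga g⁻¹) (mp g) (mp g⁻¹) (fun t _ => iv g t)
        (fun t _ => iv g⁻¹ t) fun t _ => by rw [map_sub, ← xp_ga, ← xp_ga, hy]
  rw [eq_ratCast] at hr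
  have r0 : (r : Qb) ≠ 0 := hr ▸ Finset.prod_ne_zero_iff.2 ne
  have d := fun {A B : ℤ} (X : Pt A B) => den_ne (rx X)
  have uy := nu_unit o hy ky
  have lp := Nat.prime_iff_prime_int.1 o.1
  refine ⟨kφ, (lb.fin o a (c := w * r * (rx y).den ^ ((s.erase 0).card + 1) / (rx (φ y)).den)
    ((Rat.cast_ne_zero (α := Qb)).1 (by
      push_cast
      exact div_ne_zero (mul_ne_zero (mul_ne_zero w0 r0) (pow_ne_zero _ (d _))) (d _)))
    (fun q V u o a k => ?_) (nu_unit o hφ kφ) (y := nu y ^ ((s.erase 0).card + 1))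
    (fun k => uy (lp.dvd_of_dvd_pow k)) ?_).trans (by
      rw [Int.cast_pow, lb.pow o.1 (mt (ZMod.intCast_zmod_eq_zero_iff_dvd _ _).1 uy),
        Finset.card_erase_add_one z])⟩
  · obtain ⟨f1, f2, f3, f4⟩ := gd q V u o a k
    have e2 := h.loc a o f1 f3 f2 n
    have e3 : ∑ t ∈ s.erase 0, (2 * log (u (xp y - xp t)) + lv u (um (nn u (y + t))) +
        lv u (um (nn u (y - t)))) = ∑ t ∈ s.erase 0, 2 * lv u (um (nn u y)) :=
      Finset.sum_congr rfl fun t m => by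
        have := par_good a.na (vi a A') (vi a B') f4 y t
        rw [la_eq t, max_eq_left (f3 t (Finset.mem_of_mem_erase m)), log_one, cc,
          if_neg fun e => n (by simpa [(me.1 m).2] using congrArg φ e),
          if_neg fun e => n (by simpa [(me.1 m).2] using congrArg φ e),
          show FF _ _ (st (xp y) (zp y) (xp t) (zp t)) 2 = (xp y - xp t) ^ 2 by
            simp [FF, st, zp_one y0, zp_one (me.1 m).1]; ring,
          lv_um (pow_ne_zero 2 (ne t m)), map_pow, log_pow] at this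
        simpa using this
    have ng : ∀ t ∈ s.erase 0, -t ∈ s.erase 0 := fun t m =>
      me.2 ⟨neg_ne_zero.2 (me.1 m).1, by rw [map_neg, (me.1 m).2, neg_zero]⟩
    rw [Finset.sum_add_distrib, Finset.sum_add_distrib, Finset.sum_nbij' (g := fun t =>
      lv u (um (nn u (y - t)))) (f := fun t => lv u (um (nn u (y + t)))) (fun t => -t)
      (fun t => -t) ng ng (by simp) (by simp) (by simp), Finset.sum_const, nsmul_eq_mul,
      ← Finset.mul_sum, ← log_prod fun t m => u.ne_zero (ne t m), ← map_prod, ← hr] at e3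
    rw [← Finset.add_sum_erase _ _ z, sub_zero] at e2
    rw [← a.lv_dn o hy] at e2 e3
    rw [← a.lv_dn o hφ] at e2
    simp only [dn, map_neg, lv_um (d _)] at e2 e3
    have n := fun {A B : ℤ} (X : Pt A B) => u.ne_zero (d X)
    have nr := u.ne_zero r0
    push_cast
    rw [map_div₀, map_mul, map_mul, map_pow, f2, one_mul]
    refine eq_one_of_pos_of_log_eq_zero (div_pos (mul_pos (u.pos r0) (pow_pos (u.pos (d _)) _))
      (u.pos (d _))) ?_
    rw [log_div (mul_ne_zero nr (pow_ne_zero _ (n _))) (n _), log_mul nr (pow_ne_zero _ (n _)),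
      log_pow]
    push_cast
    linarith
  · have := mul_near a.na _ _ e1 (Finset.prod_induction (s := s.erase 0)
      (fun t => (xp y - xp t) / xp y) (fun x => v (x - 1) < 1) (mul_near a.na) (by simp)
      fun t m => by
        rw [show (xp y - xp t) / xp y - 1 = -xp t / xp y by field_simp; ring, map_div₀, v.map_neg,
          div_lt_one p]
        exact (g3 t (Finset.mem_of_mem_erase m)).trans_lt b)
    rw [Finset.prod_div_distrib, ← hr, Finset.prod_const, xp_rx hφ, xp_rx hy] at this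
    refine (congrArg v ?_).trans_lt this
    have := d y
    have := d (φ y)
    have : ((rx y).num : Qb) ≠ 0 := Int.cast_ne_zero.2 fun e => uy (by rw [nu, e]; simp)
    simp only [Rat.cast_def (rx _), nu, div_pow]
    push_cast
    field_simp
    ring

open P027H P004K P004K.Gm Ig Hi in
theorem vl_iso {Λ Λ' : Submodule ℤ ℂ} {c : ℚ} {φ : Pt A' B' →+ Pt A B} (h : IsLat Λ)
    (h2 : g2 Λ = -4 * A) (h3 : g3 Λ = -4 * B) (h' : IsLat Λ') (h2' : g2 Λ' = -4 * A')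
    (h3' : g3 Λ' = -4 * B') (hc : c ≠ 0) (i : Iso c Λ' Λ φ)
    (gal : ∀ g y, φ (ga g y) = ga g (φ y)) :
    ∃ s κ, Vl φ s (c ^ 2) κ ∧ s.card = dg c Λ' Λ := by
  have c0 : (c : ℂ) ≠ 0 := Rat.cast_ne_zero.2 hc
  obtain ⟨ι, _, r, T, e, R, k⟩ := ex_ker h h2 h3 h' h2' h3' hc i
  obtain ⟨u1, u2, -⟩ := un A' B' Λ' h' h2' h3'
  let f : ι ↪ Pt A' B' := ⟨T, fun j j' a => R.inj _ _ ((u2 _ _ _ _ (k j).1 (k j').1).2.1 a)⟩
  refine ⟨Finset.univ.map f, Function.invFun P027M.M.io (-∑ j, wp Λ' (r j)),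
    ⟨hD_of h' h2' h3', pow_ne_zero 2 hc, gal, fun t => ⟨fun m => ?_, fun m => ?_⟩, fun y n => ?_⟩,
    by rw [Finset.card_map, Finset.card_univ, e]⟩
  · obtain ⟨j, -, rfl⟩ := Finset.mem_map.1 m
    exact (i _ _ (k j).1).1 ((mem_inv c0).1 (R.mem j))
  · obtain ⟨z, u⟩ := u1 t
    obtain ⟨j, a⟩ := R.ex z ((mem_inv c0).2 (un_mem (A := A) (B := B) (m ▸ i _ _ u)))
    exact Finset.mem_map.2 ⟨j, Finset.mem_univ _, ((u2 _ _ _ _ u (k j).1).2.2 a).symm⟩
  obtain ⟨z, u⟩ := u1 y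
  have z0 : c * z ∉ Λ := fun a => n ((i _ _ u).1 a)
  have e1 : P027M.M.io ((c : Qb) ^ 2 * xp (φ y) - ∑ j, xp (y - T j)) = -∑ j, wp Λ' (r j) := by
    rw [map_sub, map_mul, map_sum, un_xp (i _ _ u) z0, (hom_inv c0 Λ).wp,
      R.wp h' ((hom_inv c0 Λ).symm.isLat h), Finset.sum_sub_distrib,
      Finset.sum_congr rfl fun j _ => un_xp (un_sub h' h2' h3' u (k j).1) fun a => z0
        ((mem_inv c0).1 (mem_of_eq (add_mem (R.le a) (R.mem j)) (sub_add_cancel _ _).symm)),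
      map_pow, map_ratCast]
    field_simp
    ring
  have e2 : Function.invFun P027M.M.io (-∑ j, wp Λ' (r j)) = _ := (congrArg _ e1.symm).trans
    (Function.leftInverse_invFun (P027M.M.io : Qb →+* ℂ).injective _)
  rw [e2, Finset.sum_map, Rat.cast_pow]
  exact (add_sub_cancel _ _).symm

open P027H P004K P004K.Gm Ig in
/-- **the tame height is multiplied by the degree** -/
theorem tis {Λ Λ' : Submodule ℤ ℂ} {c : ℚ} {φ : Pt A' B' →+ Pt A B} (h : IsLat Λ)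
    (h2 : g2 Λ = -4 * A) (h3 : g3 Λ = -4 * B) (h' : IsLat Λ') (h2' : g2 Λ' = -4 * A')
    (h3' : g3 Λ' = -4 * B') (hc : c ≠ 0) (i : Iso c Λ' Λ φ)
    (gal : ∀ g y, φ (ga g y) = ga g (φ y)) : ∃ T : Finset ℕ, (∀ q ∈ T, q.Prime) ∧
      ∀ (M : Type) [AddCommGroup M] (l : ℕ) L (lam : ZMod l → M) y, Ov l L → l ∉ T → lam (-1) = 0 →
        (∀ x y, x ≠ 0 → y ≠ 0 → lam (x * y) = lam x + lam y) → (∀ q ∈ T, lam q = 0) →
        (∀ g, ga g y = y) → K1 L y → K1 L (φ y) ∧ lam (nu (φ y)) = dg c Λ' Λ • lam (nu y) := by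
  obtain ⟨s, κ, v, e⟩ := vl_iso h h2 h3 h' h2' h3' hc i gal
  obtain ⟨D, D0, k⟩ := v.main
  have m : ∀ q : ℕ, q.Prime → (q : ℤ) ∣ 2 * (4 * 0 ^ 3 + 27 * D ^ 2) →
      q ∈ (2 * (4 * 0 ^ 3 + 27 * D ^ 2)).natAbs.primeFactors := fun q a j =>
    Nat.mem_primeFactors.2 ⟨a, Int.natCast_dvd.1 j, Int.natAbs_ne_zero.2 (by positivity)⟩
  exact ⟨_, fun _ => Nat.prime_of_mem_primeFactors, fun M _ l L lam y o a b c d =>
    e ▸ k M l L lam y o ⟨fun j => a (m l o.1 j), b, c, fun q i j => d q (m q i j)⟩⟩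

end Vale.Agent.P014T.Nd
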